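import Vale.Agent.P127.U.H205.TopE

/-!
# P127 / U : hypotheses of the micro part from near-extremality (helper205)

* `phyp_of : Core.PCore → Inc.PInc → TopD.PHyp`.
-/

set_option autoImplicit false

namespace Vale.Agent.P127.U.TopF

open Finset Vale.Agent.P127 Vale.Agent.P127.Stk Vale.Agent.P127.U Vale.Agent.P127.U.Inc
  Vale.Agent.P127.U.TopE

/-- one law: everything chosen -/
theorem one {N lam β : ℝ} (hN : 2 ≤ N) (h0 : 0 < lam) (h1 : lam < 1) (h2 : lam < β) (h3 : β ≤ 2)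
    (hC : Core.PCore) {K δ θ η c w Λ εi B e₁ eps dq : ℝ} {J M m : ℕ}
    (hK : 1 ≤ K) (hδ0 : 0 < δ) (hδ1 : δ ≤ 1) (hθ : 0 < θ) (hθ1 : θ ≤ 1 / 2) (hθe : 3 * θ ≤ eps)
    (hη : 0 < η) (hc : 0 < c) (he : 0 < e₁) (hεi : 0 ≤ εi) (hB : 0 ≤ B) (hNΛ : N ≤ Λ)
    (hΛ : 4000 ≤ c * Λ) (hM2 : 2 ≤ M) (hM : 1000 ≤ lam * M) (hJ : 1 ≤ J) (hm : 1 ≤ m)
    (e1 : η ≤ δ * θ) (e2 : η ≤ lam * θ / 16) (e3 : η ≤ e₁ * β / 32) (e4 : η ≤ e₁ * lam / 404)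
    (e6 : (1 + 4 * K) * εi ≤ η / 8) (e7 : N * c * K ≤ η / 8) (e8 : 8 * N ≤ η * J)
    (e9 : εi ≤ e₁ * β / 16) (w0 : 0 < w) (w1 : w ≤ δ * θ / 4) (w2 : w ≤ lam * θ / 64)
    (w3 : w ≤ e₁) (hdq : dq ≤ η / 16) (hdq' : dq ≤ eps)
    (hmc : MC N lam β K η c B e₁ θ J m)
    {Ω : Type} [Fintype Ω] {P : Law Ω} {l : Ω → Ln} {t : Ω → ℝ} {W : Bx Ω} {h q n Bn : ℕ}
    (hh : 1 ≤ h) (hnK : (n : ℝ) ≤ K * h)
    (hmB1 : w / 2 * h ≤ ((m * Bn : ℕ) : ℝ)) (hmB2 : ((m * Bn : ℕ) : ℝ) ≤ w * h)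
    (hδq : δ * h < q)
    (l1 : (B + N * Real.log 6 + 8 * B) * (1 + Real.log (n + 1)) ≤ η / 8 * Real.log 2 * h)
    (l2 : (m : ℝ) ≤ δ * lam * θ / 1024 * h) (l3 : 30 / (c * Real.log 2) ≤ θ / 8 * h)
    (l4 : 7 * Real.log 200 ≤ η / 16 * h * Real.log 2) (l7 : (M : ℝ) ≤ e₁ / 8 * (h / m))
    (hInc : ∀ (Q : Law Ω) (v : Ω → ℝ), Nd K Q l t v n h q →
      ∃ E : ℕ → ℕ → ℝ, Incr N lam β δ εi Λ B Q l t v n h q E)
    (hx : NEx N lam β dq P l t W h q n)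
    (hpre : ∀ (S : Type) (pat : Ω → S) (k1 : ℕ), (img pat).card ≤ 2 ^ k1 → m * k1 ≤ 2 * n →
        m * Bn ≤ q →
        ∃ (X : Ω → Finset ℕ) (E : S) (x : Finset ℕ) (b1 : ℕ) (G : Finset ℕ),
          0 < P.pr (fun ω => (pat ω, X ω)) (E, x) ∧
          Real.log (1 / P.pr (fun ω => (pat ω, X ω)) (E, x)) ≤ 36 * K / lam * Real.log 2 / m * h ∧
          NEx N lam β dq (P.cond (fun ω => (pat ω, X ω)) (E, x)) l t W h q n ∧
          Real.sqrt h ≤ b1 ∧ (∀ k ∈ G, b1 ≤ m * k ∧ m * k ≤ m * Bn) ∧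
          lam / 8 * ((m * Bn : ℕ) : ℝ) ≤ m * (G.card : ℝ) ∧
          ∀ k ∈ G, Mic.colp (P.cond (fun ω => (pat ω, X ω)) (E, x))
            (fun ω => fl1 (m * k + m) ((l ω).2 0))
            (fun ω => (cel l t (fun ω => Real.tan (W.θ ω)) h q ω, fl1 (m * k) ((l ω).2 0))) ≤ e₁) :
    ∃ (Q : Law Ω) (C : CellD.Pth Ω) (k b1 b2 : ℕ) (G : Finset ℕ),
        (∀ ω, 0 < Q.w ω → 0 < P.w ω) ∧ NEx N lam β eps Q l t W h q n ∧
        (∀ ω, C.x1 ω = (l ω).1 0 ∧ C.x2 ω = (l ω).1 1 ∧ C.y1 ω = (l ω).2 0 ∧ C.y2 ω = (l ω).2 1 ∧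
          C.t ω = t ω ∧ C.v ω = Real.tan (W.θ ω)) ∧
        C.a 0 = 0 ∧ C.r 0 ≤ q ∧ Mic.Hyp Q C m k h q M (J + 1) b1 b2 (lam / 8) e₁ G ∧
        Real.sqrt h ≤ b1 ∧ w / 2 * h ≤ b2 ∧ (b2 : ℝ) ≤ e₁ * h ∧
        2 * (h : ℝ) + ((q : ℝ) - C.r 0) - eps * h ≤ 2 * (C.a k : ℝ) + ((C.r k : ℝ) - C.r 0) := by
  have hl2 : 0 < Real.log 2 := Real.log_pos (by norm_num)
  have hhr : (1 : ℝ) ≤ h := by exact_mod_cast hh
  have hhp : (0 : ℝ) < h := by linarith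
  have hmp : (0 : ℝ) < m := by exact_mod_cast (by omega : 0 < m)
  have hw4 : w ≤ 1 / 4 := by
    have : δ * θ ≤ 1 * 1 := mul_le_mul hδ1 (by linarith) hθ.le (by norm_num)
    linarith
  have hwδ : w ≤ δ / 4 := by
    have : δ * θ ≤ δ * 1 := mul_le_mul_of_nonneg_left (by linarith) hδ0.le
    linarith
  have hmδ : (m : ℝ) ≤ δ / 4 * h := by
    refine l2.trans (mul_le_mul_of_nonneg_right ?_ hhp.le)
    have a1 : lam * θ ≤ 1 * 1 := mul_le_mul h1.le (by linarith) hθ.le (by norm_num)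
    have a2 : δ * (lam * θ) ≤ δ * (1 * 1) := mul_le_mul_of_nonneg_left a1 hδ0.le
    linarith
  have hbm : ((m * Bn : ℕ) : ℝ) + m ≤ δ / 2 * h := by
    have := mul_le_mul_of_nonneg_right hwδ hhp.le
    linarith
  have hbq : m * Bn + m ≤ q := by
    have : ((m * Bn + m : ℕ) : ℝ) ≤ q := by
      push_cast at hbm ⊢
      have : 0 ≤ δ * h := by positivity
      linarith
    exact_mod_cast this
  have hbh : m * Bn + m ≤ h := by
    have : ((m * Bn + m : ℕ) : ℝ) ≤ h := by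
      push_cast at hbm ⊢
      have : δ / 2 * h ≤ 1 * h := mul_le_mul_of_nonneg_right (by linarith) hhp.le
      linarith
    exact_mod_cast this
  obtain ⟨A, hAdef⟩ : ∃ A : ℕ, A = (h - m * Bn) / m - 1 := ⟨_, rfl⟩
  obtain ⟨R, hRdef⟩ : ∃ R : ℕ, R = (q - m * Bn) / m - 1 := ⟨_, rfl⟩
  obtain ⟨hA1, hA2⟩ := nblocks hm hbh
  obtain ⟨hR1, hR2⟩ := nblocks hm hbq
  rw [← hAdef] at hA1 hA2
  rw [← hRdef] at hR1 hR2
  have hnq : n = h + q := hx.nq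
  obtain ⟨X, E, x, b1, G, hp0, hlp, hne, hb1, hG1, hG2, hG3⟩ :=
    hpre (List PathS.Lt) ((Core.expl n m A R J c l t (fun ω => Real.tan (W.θ ω))).pat P (A + R))
      (2 * (A + R)) (TopD.img_pat_card (Core.expl n m A R J c l t (fun ω => Real.tan (W.θ ω))) P)
      (by
        have e1 : m * (2 * (A + R)) = 2 * (m * A + m * R) := by ring
        rw [e1]
        omega) (by omega)
  have hcnd := PathS.cnd_of (Core.expl n m A R J c l t (fun ω => Real.tan (W.θ ω))) P X E x hp0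
  set Q := P.cond (fun ω =>
    ((Core.expl n m A R J c l t (fun ω => Real.tan (W.θ ω))).pat P (A + R) ω, X ω)) (E, x) with hQ
  have hnd : Nd K Q l t (fun ω => Real.tan (W.θ ω)) n h q := LinkC.nex_nd hne hnK
  have hvc : Vc N lam β (η / 8) Q l t (fun ω => Real.tan (W.θ ω)) n h q := by
    refine LinkC.vc_of_nex hne ?_
    have a1 : dq * h * Real.log 2 ≤ η / 16 * h * Real.log 2 :=
      mul_le_mul_of_nonneg_right (mul_le_mul_of_nonneg_right hdq hhp.le) hl2.le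
    linarith
  obtain ⟨Ef, hEf⟩ := hInc Q _ hnd
  obtain ⟨C, k, hCd, ha0, hr0, hyp, hc1, hc2⟩ := hC Ω N lam β δ εi Λ B K (η / 8) c (lam / 8) e₁ θ
    (36 * K / lam * Real.log 2 / m * h) (η * h * Real.log 2) P Q l t (fun ω => Real.tan (W.θ ω))
    n h q m A R J b1 (m * Bn) M G Ef E _
    { inc := hEf, nd := hnd, vc := hvc, cnd := hcnd, lp := hlp, hA := hA1, hA' := hA2, hR := hR1,
      hR' := hR2, hB := hG1, cardB := hG2, cy := hG3 }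
    (num hN h0 h1 h2 h3 hδ0 hδ1 hεi hB hNΛ hc he hm hJ hM2 hM hθ hθ1 hK hη hΛ hnq hnK e1 e2 e3 e4
      le_rfl e6 e7 e8 e9 w1 w2 hmc hmB2 hh l1 l2 l3 l7)
  refine ⟨Q, C, k, b1, m * Bn, G, hcnd.ac, TopD.nex_mono hne hdq', hCd, ha0, hr0, hyp, hb1, hmB1,
    ?_, ?_⟩
  · exact hmB2.trans (mul_le_mul_of_nonneg_right w3 hhp.le)
  · have a1 := mul_le_mul_of_nonneg_right hθe hhp.le
    linarith

/-- **hypotheses of the micro part** from the core and the increments -/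
theorem phyp_of (hC : Core.PCore) (hI : Inc.PInc) : TopD.PHyp := by
  intro N lam β hN h0 h1 h2 h3 hG hJL K₀ eps heps
  have hl2 : 0 < Real.log 2 := Real.log_pos (by norm_num)
  have hβ : 0 < β := by linarith
  obtain ⟨δ₃, hδ₃, hI⟩ := hI N lam β hN h0 h1 h2 h3 hG hJL
  obtain ⟨K, hK⟩ : ∃ K : ℝ, K = max K₀ 1 := ⟨_, rfl⟩
  have hK1 : 1 ≤ K := hK ▸ le_max_right _ _
  have hK0 : K₀ ≤ K := hK ▸ le_max_left _ _
  obtain ⟨δ, hδ⟩ : ∃ δ : ℝ, δ = min δ₃ 1 := ⟨_, rfl⟩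
  have hδ0 : 0 < δ := by rw [hδ]; positivity
  have hδ1 : δ ≤ 1 := hδ ▸ min_le_right _ _
  have hδ3 : δ ≤ δ₃ := hδ ▸ min_le_left _ _
  have hI' : ∀ Λ ε : ℝ, N ≤ Λ → 0 < ε → ∃ B : ℝ, 0 ≤ B ∧
      ∀ (Ω : Type) [Fintype Ω] (Q : Law Ω) (l : Ω → Ln) (t v : Ω → ℝ) (n h q : ℕ),
        Nd K Q l t v n h q → ∃ E : ℕ → ℕ → ℝ, Incr N lam β δ ε Λ B Q l t v n h q E := by
    intro Λ ε hΛ hε
    obtain ⟨B, hB, hE⟩ := hI K Λ ε hΛ hε
    refine ⟨B, hB, fun Ω _ Q l t v n h q hd => ?_⟩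
    obtain ⟨E, hE⟩ := hE Ω Q l t v n h q hd
    exact ⟨E, incr_mono hE hδ3⟩
  obtain ⟨θ, hθ⟩ : ∃ θ : ℝ, θ = min (eps / 3) (1 / 4) := ⟨_, rfl⟩
  have hθ0 : 0 < θ := by rw [hθ]; positivity
  have hθ1 : θ ≤ 1 / 4 := hθ ▸ min_le_right _ _
  have hθ2 : θ ≤ eps / 3 := hθ ▸ min_le_left _ _
  obtain ⟨M0, hM0⟩ := exists_nat_ge (1000 / lam)
  refine ⟨M0 + 2, lam / 8, by positivity, ?_⟩
  intro e₁ he
  have hM : 1000 ≤ lam * ((M0 + 2 : ℕ) : ℝ) := by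
    rw [div_le_iff₀ h0] at hM0
    push_cast
    nlinarith
  obtain ⟨η, hη⟩ : ∃ η : ℝ, η = min (δ * θ) (min (lam * θ / 16) (min (e₁ * β / 32)
    (e₁ * lam / 404))) := ⟨_, rfl⟩
  have hη0 : 0 < η := by rw [hη]; positivity
  have e1 : η ≤ δ * θ := hη ▸ min_le_left _ _
  have e2 : η ≤ lam * θ / 16 := hη ▸ (min_le_right _ _).trans (min_le_left _ _)
  have e3 : η ≤ e₁ * β / 32 :=
    hη ▸ (min_le_right _ _).trans ((min_le_right _ _).trans (min_le_left _ _))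
  have e4 : η ≤ e₁ * lam / 404 :=
    hη ▸ (min_le_right _ _).trans ((min_le_right _ _).trans (min_le_right _ _))
  obtain ⟨c, hc⟩ : ∃ c : ℝ, c = η / (8 * N * K) := ⟨_, rfl⟩
  have hNp : 0 < N := by linarith
  have hKp : 0 < K := by linarith
  have hc0 : 0 < c := by rw [hc]; positivity
  have e7 : N * c * K ≤ η / 8 := by
    rw [hc]
    refine le_of_eq ?_
    field_simp
  obtain ⟨J, hJ⟩ := exists_nat_ge (8 * N / η)
  have e8 : 8 * N ≤ η * J := by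
    rw [div_le_iff₀ hη0] at hJ
    linarith
  have hJ1 : 1 ≤ J := by
    rcases Nat.eq_zero_or_pos J with hz | hz
    · rw [hz] at e8
      simp only [Nat.cast_zero, mul_zero] at e8
      linarith
    · exact hz
  obtain ⟨w, hw⟩ : ∃ w : ℝ, w = min (δ * θ / 4) (min (lam * θ / 64) e₁) := ⟨_, rfl⟩
  have w0 : 0 < w := by rw [hw]; positivity
  have w1 : w ≤ δ * θ / 4 := hw ▸ min_le_left _ _
  have w2 : w ≤ lam * θ / 64 := hw ▸ (min_le_right _ _).trans (min_le_left _ _)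
  have w3 : w ≤ e₁ := hw ▸ (min_le_right _ _).trans (min_le_right _ _)
  have w4 : w ≤ K := by
    have : δ * θ ≤ 1 * 1 := mul_le_mul hδ1 (by linarith) hθ0.le (by norm_num)
    linarith
  obtain ⟨Λ, hΛd⟩ : ∃ Λ : ℝ, Λ = max N (4000 / c) := ⟨_, rfl⟩
  have hNΛ : N ≤ Λ := hΛd ▸ le_max_left _ _
  have hΛ : 4000 ≤ c * Λ := by
    have : 4000 / c ≤ Λ := hΛd ▸ le_max_right _ _
    rw [div_le_iff₀ hc0] at this
    linarith
  obtain ⟨εi, hεi⟩ : ∃ εi : ℝ, εi = min (η / (8 * (1 + 4 * K))) (e₁ * β / 16) := ⟨_, rfl⟩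
  have hεi0 : 0 < εi := by rw [hεi]; positivity
  have e6 : (1 + 4 * K) * εi ≤ η / 8 := by
    have a1 : εi ≤ η / (8 * (1 + 4 * K)) := hεi ▸ min_le_left _ _
    have a2 := mul_le_mul_of_nonneg_left a1 (show 0 ≤ 1 + 4 * K by positivity)
    refine a2.trans (le_of_eq ?_)
    field_simp
  have e9 : εi ≤ e₁ * β / 16 := hεi ▸ min_le_right _ _
  obtain ⟨B, hB, hInc⟩ := hI' Λ εi hNΛ hεi0
  obtain ⟨dq, hdq⟩ : ∃ dq : ℝ, dq = min eps (min (η / 16) (δ / 16)) := ⟨_, rfl⟩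
  have hdq0 : 0 < dq := by rw [hdq]; positivity
  have hdq1 : dq ≤ eps := hdq ▸ min_le_left _ _
  have hdq2 : dq ≤ η / 16 := hdq ▸ (min_le_right _ _).trans (min_le_left _ _)
  have hdq3 : dq ≤ δ / 16 := hdq ▸ (min_le_right _ _).trans (min_le_right _ _)
  obtain ⟨Lw, hLw⟩ := width (lam := lam) (β := β) hN hδ0 hK1 hI'
  obtain ⟨mp, -, hmp⟩ := pre hN h0 h1 hG hK1 w0 w4 hdq0 he
  obtain ⟨mc, hmc⟩ := exists_mc (N := N) (lam := lam) (β := β) (K := K) (η := η) (c := c) (B := B)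
    (e₁ := e₁) (θ := θ) J hN hβ hη0 hc0 he hθ0
  refine ⟨J + 1, w / 2, by positivity, ?_⟩
  intro δ₀ hδ₀
  obtain ⟨m0, hm0⟩ := exists_nat_ge (1 / δ₀)
  obtain ⟨m, hmdef⟩ : ∃ m : ℕ, m = max 1 (max mp (max mc m0)) := ⟨_, rfl⟩
  have hm1 : 1 ≤ m := by omega
  have hmpos : (0 : ℝ) < m := by exact_mod_cast (by omega : 0 < m)
  have hmδ₀ : 1 ≤ δ₀ * m := by
    have a1 : 1 / δ₀ ≤ m := hm0.trans (by exact_mod_cast (by omega : m0 ≤ m))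
    rw [div_le_iff₀ hδ₀] at a1
    linarith
  have hmc' := hmc m (by omega)
  obtain ⟨δp, hδp, Lp, hLp⟩ := hmp m (by omega)
  obtain ⟨L1, hL1⟩ := log_small (B + N * Real.log 6 + 8 * B) K (η := η / 8 * Real.log 2)
    (by positivity)
  obtain ⟨L2, hL2⟩ := exists_nat_ge (m / (δ * lam * θ / 1024))
  obtain ⟨L3, hL3⟩ := exists_nat_ge (30 / (c * Real.log 2) / (θ / 8))
  obtain ⟨L4, hL4⟩ := exists_nat_ge (m * 2 / w)
  obtain ⟨L5, hL5⟩ := exists_nat_ge (7 * Real.log 200 / (η / 16 * Real.log 2))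
  obtain ⟨L6, hL6⟩ := exists_nat_ge ((2 : ℝ) ^ (m / δ₀))
  obtain ⟨L7, hL7⟩ := exists_nat_ge (((M0 + 2 : ℕ) : ℝ) * m / (e₁ / 8))
  refine ⟨min δp dq, by positivity,
    max 1 (max Lw (max Lp (max L1 (max L2 (max L3 (max L4 (max L5 (max L6 L7)))))))), ?_⟩
  intro Ω _ P l t W h q n hL hnK₀ hx
  have hh : 1 ≤ h := by omega
  have hhp : (0 : ℝ) < h := by exact_mod_cast (by omega : 0 < h)
  have hnK : (n : ℝ) ≤ K * h := hnK₀.trans (mul_le_mul_of_nonneg_right hK0 hhp.le)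
  have hx1 : NEx N lam β δp P l t W h q n := TopD.nex_mono hx (min_le_left _ _)
  have hx2 : NEx N lam β dq P l t W h q n := TopD.nex_mono hx (min_le_right _ _)
  have l1 := hL1 h n (by omega) hnK
  have l2 : (m : ℝ) ≤ δ * lam * θ / 1024 * h := by
    have a1 : (m : ℝ) / (δ * lam * θ / 1024) ≤ h := hL2.trans (by exact_mod_cast (by omega : L2 ≤ h))
    rw [div_le_iff₀ (by positivity)] at a1
    linarith
  have l3 : 30 / (c * Real.log 2) ≤ θ / 8 * h := by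
    have a1 : 30 / (c * Real.log 2) / (θ / 8) ≤ h :=
      hL3.trans (by exact_mod_cast (by omega : L3 ≤ h))
    rw [div_le_iff₀ (by positivity)] at a1
    linarith
  have l4 : 7 * Real.log 200 ≤ η / 16 * h * Real.log 2 := by
    have a1 : 7 * Real.log 200 / (η / 16 * Real.log 2) ≤ h :=
      hL5.trans (by exact_mod_cast (by omega : L5 ≤ h))
    rw [div_le_iff₀ (by positivity)] at a1
    linarith
  have l5 : (m : ℝ) ≤ δ₀ * Real.logb 2 h := by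
    have a1 : (2 : ℝ) ^ (m / δ₀) ≤ h := hL6.trans (by exact_mod_cast (by omega : L6 ≤ h))
    have a2 : (m : ℝ) / δ₀ ≤ Real.logb 2 h := by
      rw [Real.le_logb_iff_rpow_le (by norm_num) hhp]
      exact a1
    rw [div_le_iff₀ hδ₀] at a2
    linarith
  have l6 : (m : ℝ) * 2 / w ≤ h := hL4.trans (by exact_mod_cast (by omega : L4 ≤ h))
  have l7 : ((M0 + 2 : ℕ) : ℝ) ≤ e₁ / 8 * (h / m) := by
    have a1 : ((M0 + 2 : ℕ) : ℝ) * m / (e₁ / 8) ≤ h :=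
      hL7.trans (by exact_mod_cast (by omega : L7 ≤ h))
    rw [div_le_iff₀ (by positivity)] at a1
    rw [← mul_div_assoc, le_div_iff₀ hmpos]
    linarith
  have hδq : δ * h < q := by
    refine hLw Ω P l t (fun ω => Real.tan (W.θ ω)) n h q (by omega) (LinkC.nex_nd hx2 hnK) ?_
    refine LinkC.vc_of_nex hx2 ?_
    have a1 : dq * h * Real.log 2 ≤ δ / 16 * h * Real.log 2 :=
      mul_le_mul_of_nonneg_right (mul_le_mul_of_nonneg_right hdq3 hhp.le) hl2.le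
    have a2 : η ≤ δ := by
      have : δ * θ ≤ δ * 1 := mul_le_mul_of_nonneg_left (by linarith) hδ0.le
      linarith
    have a3 : η / 16 * h * Real.log 2 ≤ δ / 16 * h * Real.log 2 :=
      mul_le_mul_of_nonneg_right (mul_le_mul_of_nonneg_right (by linarith) hhp.le) hl2.le
    linarith
  obtain ⟨Bn, hB0, hBle, hBge, hmB1, hmB2⟩ := blocks w0 hm1 l6
  obtain ⟨Q, C, k, b1, b2, G, hac, hQ, hCd, ha0, hr0, hyp, hb1, hb2, hb3, hcor⟩ :=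
    one hN h0 h1 h2 h3 hC hK1 hδ0 hδ1 hθ0 (by linarith) (by linarith) hη0 hc0 he hεi0.le hB hNΛ hΛ
      (by omega : 2 ≤ M0 + 2) hM hJ1 hm1 e1 e2 e3 e4 e6 e7 e8 e9 w0 w1 w2 w3 hdq2 hdq1 hmc' hh hnK
      hmB1 hmB2 hδq l1 l2 l3 l4 l7 (fun Q v hd => hInc Ω Q l t v n h q hd) hx2
      (fun S pat k1 hk1 hk2 hq => hLp Ω P l t W h q n (by omega) hnK hx1 S pat k1 Bn hk1 hk2 hB0
        hBle hBge hmB1 hq)
  exact ⟨Q, C, m, k, b1, b2, G, hac, hQ, hCd, ha0, hr0, hyp, hmδ₀, l5, hb1, hb2, hb3, hcor⟩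

end Vale.Agent.P127.U.TopF
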