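import Vale.Agent.P127.U.Lam.IncDefs
import Vale.Agent.P127.U.H404.Act

/-!
# P127 / U : activity from the increments (helper205)

`Incr` (565) along a deterministic path of blocks, and 404's `act_colp`:

* `ct_sum` : the sum over the time steps of the collision probabilities of the time blocks.
* `ct_hyp` : the same for the data `C : CellD.Pth Ω` (the field `ct` of `Mic.Hyp`).
-/

set_option autoImplicit false

namespace Vale.Agent.P127.U.ActI

open Finset Vale.Agent.P127 Vale.Agent.P127.Stk Vale.Agent.P127.U Vale.Agent.P127.U.Inc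
  Vale.Agent.P127.U.Act Vale.Agent.P127.U.Mic Vale.Agent.P127.U.Nonat

variable {Ω : Type} [Fintype Ω]

/-- the path advances by blocks of `m` digits -/
def Blks (a r : ℕ → ℕ) (m k : ℕ) : Prop := ∀ i < k,
  (a (i + 1) = a i + m ∧ r (i + 1) = r i) ∨ (a (i + 1) = a i ∧ r (i + 1) = r i + m)

theorem Blks.le {a r : ℕ → ℕ} {m k : ℕ} (h : Blks a r m k) {i j : ℕ} (hij : i ≤ j) (hj : j ≤ k) :
    a i ≤ a j ∧ r i ≤ r j := by
  induction j, hij using Nat.le_induction with
  | base => exact ⟨le_rfl, le_rfl⟩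
  | succ j hij ih =>
    obtain ⟨h1, h2⟩ := ih (by omega)
    rcases h j (by omega) with ⟨e1, e2⟩ | ⟨e1, e2⟩ <;> omega

/-- the event `gs` of the next block is a function of the line and of the next state -/
theorem gs_fn {S T : Type*} {P : Law Ω} {X : Ω → S} {Z : Ω → T} {c : ℝ} {ω ω' : Ω}
    (h1 : X ω = X ω') (h2 : Z ω = Z ω') : gs P X Z c ω = gs P X Z c ω' := by
  classical
  have : cp P X Z ω = cp P X Z ω' := by
    unfold cp
    rw [h1, h2]
  unfold gs
  rw [this]

/-- **activity along the path** -/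
theorem ct_sum {N lam β δ ε Λ B : ℝ} {Q : Law Ω} {l : Ω → Ln} {t v : Ω → ℝ} {n h q : ℕ}
    {E : ℕ → ℕ → ℝ} (hI : Incr N lam β δ ε Λ B Q l t v n h q E) (hN : 0 ≤ N)
    {a r : ℕ → ℕ} {m k : ℕ} (hm : 1 ≤ m) (hst : Blks a r m k) (ha : a k ≤ h) (hr : r k ≤ q)
    {c κ Δ : ℝ} (hκ0 : 0 < κ)
    (hκ : κ ≤ (β + N - 2) * m * Real.log 2 - N * c)
    (hT : ∑ i ∈ (range k).filter (fun i => a i < a (i + 1)), (β * m * Real.log 2 +
        N * (m * Real.log 2 - Stk.hc Q (fun ω => fl1 (a i + m) (t ω))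
          (fun ω => (tb n (l ω), st t v (a i) (r i) ω)))) - Δ ≤
      E (a k) (r k) - E (a 0) (r 0)) :
    ∑ i ∈ (range k).filter (fun i => a i < a (i + 1)),
        colp Q (fun ω => fl1 (a i + m) (t ω)) (fun ω => (tb n (l ω), st t v (a i) (r i) ω)) ≤
      (Δ + k * (N * Real.log 2 + ε * m * Real.log 2 + B)) / κ + k * Real.exp (-c) := by
  classical
  set A := (range k).filter (fun i => a i < a (i + 1)) with hA
  have hAs : A ⊆ range k := filter_subset _ _
  have hl2 : 0 < Real.log 2 := Real.log_pos (by norm_num)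
  have hstep : ∀ i ∈ A, a (i + 1) = a i + m ∧ r (i + 1) = r i := by
    intro i hi
    rw [hA, mem_filter, mem_range] at hi
    rcases hst i hi.1 with h1 | h1
    · exact h1
    · omega
  have hns : ∀ i, i < k → i ∉ A → a (i + 1) = a i ∧ r (i + 1) = r i + m := by
    intro i hi hn
    rcases hst i hi with h1 | h1
    · exact absurd (mem_filter.2 ⟨mem_range.2 hi, by omega⟩) hn
    · exact h1
  have hle : ∀ i, i < k → a i ≤ a (i + 1) ∧ a (i + 1) ≤ h ∧ r i ≤ r (i + 1) ∧ r (i + 1) ≤ q := by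
    intro i hi
    have h1 := hst.le (show i ≤ i + 1 by omega) (by omega : i + 1 ≤ k)
    have h2 := hst.le (show i + 1 ≤ k by omega) le_rfl
    omega
  have main := act_colp Q k A hAs (fun i ω => fl1 (a i + m) (t ω))
    (fun i ω => (tb n (l ω), st t v (a i) (r i) ω)) (fun i => E (a i) (r i))
    (fun _ => ε * m * Real.log 2 + B) (fun _ => β * m * Real.log 2) (fun _ => β * m * Real.log 2)
    (fun _ => 2 * m * Real.log 2) (fun _ => m * Real.log 2) (fun _ => c) (N := N) (κ := κ)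
    (Δ := Δ) hN ?_ ?_ hT hκ0 ?_
  · have e1 : ∀ i ∈ A, Q.ex (cp Q (fun ω => fl1 (a i + m) (t ω))
        (fun ω => (tb n (l ω), st t v (a i) (r i) ω))) =
        colp Q (fun ω => fl1 (a i + m) (t ω)) (fun ω => (tb n (l ω), st t v (a i) (r i) ω)) :=
      fun i _ => rfl
    rw [Finset.sum_congr rfl e1] at main
    refine main.trans ?_
    have hc1 : (A.card : ℝ) ≤ k := by
      have := card_le_card hAs
      rw [card_range] at this
      exact_mod_cast this
    have hk0 : (0 : ℝ) ≤ k := Nat.cast_nonneg k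
    have s1 : ∑ _i ∈ A, (β * m * Real.log 2 - β * m * Real.log 2 + N * Real.log 2) =
        A.card * (N * Real.log 2) := by
      rw [sub_self, zero_add, sum_const, nsmul_eq_mul]
    have s2 : ∑ _i ∈ range k, (ε * m * Real.log 2 + B) = k * (ε * m * Real.log 2 + B) := by
      rw [sum_const, card_range, nsmul_eq_mul]
    have s3 : ∑ _i ∈ A, Real.exp (-c) = A.card * Real.exp (-c) := by
      rw [sum_const, nsmul_eq_mul]
    rw [s1, s2, s3]
    have h1 : (A.card : ℝ) * (N * Real.log 2) ≤ k * (N * Real.log 2) :=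
      mul_le_mul_of_nonneg_right hc1 (mul_nonneg hN hl2.le)
    have h2 : (A.card : ℝ) * Real.exp (-c) ≤ k * Real.exp (-c) :=
      mul_le_mul_of_nonneg_right hc1 (Real.exp_pos _).le
    have h4 : (Δ + A.card * (N * Real.log 2) + k * (ε * m * Real.log 2 + B)) / κ ≤
        (Δ + k * (N * Real.log 2 + ε * m * Real.log 2 + B)) / κ := by
      refine div_le_div_of_nonneg_right ?_ hκ0.le
      linarith
    linarith
  · -- time steps
    intro i hi
    have hik : i < k := mem_range.1 (hAs hi)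
    obtain ⟨e1, e2⟩ := hstep i hi
    obtain ⟨b1, b2, b3, b4⟩ := hle i hik
    set X : Ω → ℤ := fun ω => fl1 (a i + m) (t ω) with hX
    set Z : Ω → ((Fin 2 → ℤ) × (Fin 2 → ℤ)) × ℤ × ℤ :=
      fun ω => (tb n (l ω), st t v (a i) (r i) ω) with hZ
    have hev := hI.event (a i) (a (i + 1)) (r i) (r (i + 1)) (gs Q X Z c) b1 b2 b3 b4
      (fun ω ω' _ _ g1 g2 => by
        have g3 : fl1 (a i + m) (t ω) = fl1 (a i + m) (t ω') ∧ fl1 (r i) (v ω) = fl1 (r i) (v ω') := by
          have := g2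
          unfold st at this
          rw [e1, e2] at this
          exact ⟨congrArg Prod.fst this, congrArg Prod.snd this⟩
        refine gs_fn (P := Q) g3.1 ?_
        show (tb n (l ω), st t v (a i) (r i) ω) = (tb n (l ω'), st t v (a i) (r i) ω')
        refine Prod.ext g1 (Prod.ext ?_ g3.2)
        exact CellD.fl1_fl1 (Nat.le_add_right _ _) g3.1)
    have hpb := pr_bool Q (gs Q X Z c)
    rw [e1, e2] at hev
    have her : er ε B (a i) (a i + m) (r i) (r i) = ε * m * Real.log 2 + B := by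
      unfold er
      push_cast
      ring
    rw [her] at hev
    have hcast : (((a i + m : ℕ) : ℝ) - (a i : ℝ)) = m := by push_cast; ring
    rw [hcast] at hev
    show E (a (i + 1)) (r (i + 1)) - E (a i) (r i) ≤ _
    rw [e1, e2]
    have hpf : Q.pr (gs Q X Z c) false = 1 - Q.pr (gs Q X Z c) true := by linarith
    rw [hpf]
    have : Q.pr (gs Q X Z c) true * (m * Real.log 2 -
        Stk.hc (Q.cond (gs Q X Z c) true) (fun ω => fl1 (a i + m) (t ω))
          (fun ω => (tb n (l ω), st t v (a i) (r i) ω))) =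
        Q.pr (gs Q X Z c) true * (m * Real.log 2) - Q.pr (gs Q X Z c) true *
        Stk.hc (Q.cond (gs Q X Z c) true) X Z := by
      rw [mul_sub]
    rw [this] at hev
    linarith
  · -- slope steps
    intro i hi hn
    obtain ⟨e1, e2⟩ := hns i hi hn
    obtain ⟨b1, b2, b3, b4⟩ := hle i hi
    have hev := hI.ext (a i) (a (i + 1)) (r i) (r (i + 1)) b1 b2 b3 b4
    show E (a (i + 1)) (r (i + 1)) - E (a i) (r i) ≤ _
    rw [e1, e2] at hev ⊢
    have her : er ε B (a i) (a i) (r i) (r i + m) = ε * m * Real.log 2 + B := by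
      unfold er
      push_cast
      ring
    rw [her] at hev
    have : (2 : ℝ) * ((a i : ℝ) - a i) * Real.log 2 = 0 := by ring
    rw [this] at hev
    linarith
  · intro i _
    refine hκ.trans (le_of_eq ?_)
    ring

/-- **activity along the path**, with the constants chosen -/
theorem ct_le {N lam β δ ε Λ B : ℝ} {Q : Law Ω} {l : Ω → Ln} {t v : Ω → ℝ} {n h q : ℕ}
    {E : ℕ → ℕ → ℝ} (hI : Incr N lam β δ ε Λ B Q l t v n h q E) (hN : 2 ≤ N) (hβ : 0 < β)
    {a r : ℕ → ℕ} {m k : ℕ} (hm : 1 ≤ m) (hst : Blks a r m k) (ha : a k ≤ h) (hr : r k ≤ q)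
    {ε' Δ : ℝ}
    (hT : ∑ i ∈ (range k).filter (fun i => a i < a (i + 1)), (β * m * Real.log 2 +
        N * (m * Real.log 2 - Stk.hc Q (fun ω => fl1 (a i + m) (t ω))
          (fun ω => (tb n (l ω), st t v (a i) (r i) ω)))) - Δ ≤
      E (a k) (r k) - E (a 0) (r 0))
    (hε : ε ≤ ε' * β / 16) (hΔ : Δ ≤ ε' * β / 16 * (k * (m * Real.log 2)))
    (hm1 : N * Real.log 2 + B ≤ ε' * β / 16 * (m * Real.log 2))
    (hm2 : Real.exp (-(β / (2 * N) * (m * Real.log 2))) ≤ ε' / 2) (hε' : 0 ≤ ε') :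
    ∑ i ∈ (range k).filter (fun i => a i < a (i + 1)),
        colp Q (fun ω => fl1 (a i + m) (t ω)) (fun ω => (tb n (l ω), st t v (a i) (r i) ω)) ≤
      ε' * k := by
  have hl2 : 0 < Real.log 2 := Real.log_pos (by norm_num)
  have hN0 : 0 < N := by linarith
  have hmr : (1 : ℝ) ≤ m := by exact_mod_cast hm
  have hML : 0 < (m : ℝ) * Real.log 2 := mul_pos (by linarith) hl2
  set M : ℝ := m * Real.log 2 with hM
  have hκ0 : 0 < β / 2 * M := by positivity
  have h0 := ct_sum hI hN0.le hm hst ha hr (c := β / (2 * N) * M) hκ0 (by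
    have e1 : N * (β / (2 * N) * M) = β / 2 * M := by field_simp
    rw [e1]
    have e2 : (β + N - 2) * m * Real.log 2 = β * M + (N - 2) * M := by rw [hM]; ring
    rw [e2]
    have : 0 ≤ (N - 2) * M := mul_nonneg (by linarith) hML.le
    linarith) hT
  refine h0.trans ?_
  have hk0 : (0 : ℝ) ≤ k := Nat.cast_nonneg k
  have h1 : (Δ + k * (N * Real.log 2 + ε * m * Real.log 2 + B)) / (β / 2 * M) ≤ ε' / 2 * k := by
    rw [div_le_iff₀ hκ0]
    have e3 : N * Real.log 2 + ε * m * Real.log 2 + B ≤ ε' * β / 16 * M + ε' * β / 16 * M := by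
      have : ε * m * Real.log 2 = ε * M := by rw [hM]; ring
      rw [this]
      have := mul_le_mul_of_nonneg_right hε hML.le
      linarith
    have e4 := mul_le_mul_of_nonneg_left e3 hk0
    have e5 : ε' / 2 * k * (β / 2 * M) = ε' * β / 16 * (k * M) * 4 := by ring
    have e6 : 0 ≤ ε' * β / 16 * (k * M) := by positivity
    nlinarith
  have h2 : (k : ℝ) * Real.exp (-(β / (2 * N) * M)) ≤ ε' / 2 * k := by
    rw [mul_comm]
    exact mul_le_mul_of_nonneg_right hm2 hk0
  linarith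

/-- the line of the data and the rounded line -/
theorem fn_ln {K : ℝ} {Q : Law Ω} {l : Ω → Ln} {t v : Ω → ℝ} {n h q : ℕ}
    (hd : Nd K Q l t v n h q) (a r : ℕ → ℕ) (ha : Monotone a) (hr : Monotone r) (i : ℕ)
    {ω ω' : Ω} (hω : 0 < Q.w ω) (hω' : 0 < Q.w ω') :
    ((mkP l t v a r ha hr).ln ω, (mkP l t v a r ha hr).T i ω) =
      ((mkP l t v a r ha hr).ln ω', (mkP l t v a r ha hr).T i ω') ↔
    (tb n (l ω), st t v (a i) (r i) ω) = (tb n (l ω'), st t v (a i) (r i) ω') := by
  constructor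
  · intro e
    have e1 := congrArg Prod.fst e
    have e2 := congrArg Prod.snd e
    have f1 : (l ω).1 0 = (l ω').1 0 := congrArg (fun x => x.1) e1
    have f2 : (l ω).1 1 = (l ω').1 1 := congrArg (fun x => x.2.1) e1
    have f3 : (l ω).2 0 = (l ω').2 0 := congrArg (fun x => x.2.2.1) e1
    have f4 : (l ω).2 1 = (l ω').2 1 := congrArg (fun x => x.2.2.2) e1
    have g : l ω = l ω' := by
      refine Prod.ext ?_ ?_ <;>
      · funext j
        fin_cases j <;> assumption
    refine Prod.ext ?_ e2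
    show tb n (l ω) = tb n (l ω')
    rw [g]
  · intro e
    have g := hd.rnd ω ω' hω hω' (congrArg Prod.fst e)
    have e2 : st t v (a i) (r i) ω = st t v (a i) (r i) ω' := congrArg Prod.snd e
    refine Prod.ext ?_ e2
    show ((l ω).1 0, (l ω).1 1, (l ω).2 0, (l ω).2 1) =
      ((l ω').1 0, (l ω').1 1, (l ω').2 0, (l ω').2 1)
    rw [g]

/-- collision probabilities given the line of the data -/
theorem colp_ln {K : ℝ} {Q : Law Ω} {l : Ω → Ln} {t v : Ω → ℝ} {n h q : ℕ}
    (hd : Nd K Q l t v n h q) (a r : ℕ → ℕ) (ha : Monotone a) (hr : Monotone r) (i : ℕ)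
    {S : Type*} (X : Ω → S) :
    colp Q X (fun ω => ((mkP l t v a r ha hr).ln ω, (mkP l t v a r ha hr).T i ω)) =
      colp Q X (fun ω => (tb n (l ω), st t v (a i) (r i) ω)) :=
  colp_congr Q (fun _ _ _ _ e => congrArg Prod.fst e) (fun _ _ _ _ e => congrArg Prod.fst e)
    (fun _ _ h1 h2 e => (fn_ln hd a r ha hr i h1 h2).2 e)
    (fun _ _ h1 h2 e => (fn_ln hd a r ha hr i h1 h2).1 e)

/-- **the field `ct` of `Mic.Hyp`** -/
theorem ct_hyp {K : ℝ} {Q : Law Ω} {l : Ω → Ln} {t v : Ω → ℝ} {n h q : ℕ}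
    (hd : Nd K Q l t v n h q) {a r : ℕ → ℕ} (ha : Monotone a) (hr : Monotone r) {m k : ℕ}
    {b : ℝ} (h : ∑ i ∈ (range k).filter (fun i => a i < a (i + 1)),
        colp Q (fun ω => fl1 (a i + m) (t ω)) (fun ω => (tb n (l ω), st t v (a i) (r i) ω)) ≤ b) :
    ∑ i ∈ (range k).filter (fun i => (mkP l t v a r ha hr).a i < (mkP l t v a r ha hr).a (i + 1)),
      colp Q (fun ω => fl1 ((mkP l t v a r ha hr).a i + m) ((mkP l t v a r ha hr).t ω))
        (fun ω => ((mkP l t v a r ha hr).ln ω, (mkP l t v a r ha hr).T i ω)) ≤ b := by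
  refine le_trans (le_of_eq ?_) h
  refine Finset.sum_congr rfl fun i _ => ?_
  exact colp_ln hd a r ha hr i _

end Vale.Agent.P127.U.ActI
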