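import Vale.Agent.P127.U.Lam.TopD1B
import Vale.Agent.P127.U.Lam.TopD3
import Vale.Agent.P127.U.Lam.CoreDef

/-!
# P127 / U : selection of the law and of the base levels, constants (helper205)

* `log_small` : `C (1 + log (n + 1)) ≤ η h` for large `h`.
* `width` : the end label of a near-extremal law has width `q > δ h`.
* `pre` : joint word with near-extremality, small `log (1 / p)` and the good base levels.
-/

set_option autoImplicit false

namespace Vale.Agent.P127.U.TopE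

open Finset Vale.Agent.P127 Vale.Agent.P127.Stk Vale.Agent.P127.U Vale.Agent.P127.U.Inc

/-- logarithms are small -/
theorem log_small (C K : ℝ) {η : ℝ} (hη : 0 < η) : ∃ L : ℕ, ∀ h n : ℕ, L ≤ h → (n : ℝ) ≤ K * h →
    C * (1 + Real.log (n + 1)) ≤ η * h := by
  set C' : ℝ := max C 1 with hC'
  set K' : ℝ := max K 1 with hK'
  have hC1 : 1 ≤ C' := le_max_right _ _
  have hK1 : 1 ≤ K' := le_max_right _ _
  set a : ℝ := η / (2 * C' * K') with ha
  have ha0 : 0 < a := by positivity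
  obtain ⟨L, hL⟩ := exists_nat_ge (2 * (C' * (a - Real.log a)) / η)
  refine ⟨L, fun h n hh hn => ?_⟩
  have hn0 : (0 : ℝ) ≤ n := Nat.cast_nonneg n
  have hh0 : (0 : ℝ) ≤ h := Nat.cast_nonneg h
  have h1 : Real.log (a * (n + 1)) ≤ a * (n + 1) - 1 := Real.log_le_sub_one_of_pos (by positivity)
  rw [Real.log_mul ha0.ne' (by positivity)] at h1
  have hlog : 0 ≤ Real.log ((n : ℝ) + 1) := Real.log_nonneg (by linarith)
  have h2 : (n : ℝ) ≤ K' * h := hn.trans (mul_le_mul_of_nonneg_right (le_max_left _ _) hh0)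
  have h3 : 2 * (C' * (a - Real.log a)) / η ≤ h := hL.trans (by exact_mod_cast hh)
  rw [div_le_iff₀ hη] at h3
  have h4 : C * (1 + Real.log (n + 1)) ≤ C' * (1 + Real.log (n + 1)) :=
    mul_le_mul_of_nonneg_right (le_max_left _ _) (by linarith)
  have h5 : C' * (1 + Real.log (n + 1)) ≤ C' * (a * (K' * h + 1) - Real.log a) := by
    refine mul_le_mul_of_nonneg_left ?_ (by linarith)
    have : a * (n + 1) ≤ a * (K' * h + 1) := mul_le_mul_of_nonneg_left (by linarith) ha0.le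
    linarith
  have h6 : C' * (a * (K' * h)) = η / 2 * h := by
    rw [ha]
    field_simp
  have h7 : C' * (a * (K' * h + 1) - Real.log a) = C' * (a * (K' * h)) + C' * (a - Real.log a) := by
    ring
  linarith

/-- entropy of the state of level `(0, 0)` -/
theorem hc_st_zero {Ω : Type} [Fintype Ω] {T : Type*} (Q : Law Ω) {t v : Ω → ℝ} (Z : Ω → T)
    (ht : ∀ ω, 0 < Q.w ω → 0 ≤ t ω ∧ t ω ≤ 1) (hv : ∀ ω, 0 < Q.w ω → |v ω| ≤ 1) :
    Stk.hc Q (st t v 0 0) Z ≤ Real.log 6 := by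
  have h1 := hc_le_log Q (st t v 0 0) Z 6 fun ω _ =>
    ⟨(Finset.Icc (0 : ℤ) 1) ×ˢ (Finset.Icc (-1 : ℤ) 1), by decide, fun ω' hω' _ => ?_⟩
  · exact_mod_cast h1
  · have h2 := ht ω' hω'
    have h3 := abs_le.1 (hv ω' hω')
    unfold st
    rw [mem_product, mem_Icc, mem_Icc]
    unfold fl1
    simp only [pow_zero, one_mul]
    refine ⟨⟨Int.floor_nonneg.2 h2.1, ?_⟩, ?_, ?_⟩
    · exact Int.floor_le_iff.2 (by push_cast; linarith)
    · exact Int.le_floor.2 (by push_cast; linarith)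
    · exact Int.floor_le_iff.2 (by push_cast; linarith)

/-- **the end label is wide** -/
theorem width {N lam β δ₃ : ℝ} (hN : 2 ≤ N) (hδ : 0 < δ₃) {K : ℝ} (hK : 1 ≤ K)
    (hI : ∀ Λ ε : ℝ, N ≤ Λ → 0 < ε → ∃ B : ℝ, 0 ≤ B ∧
      ∀ (Ω : Type) [Fintype Ω] (Q : Law Ω) (l : Ω → Ln) (t v : Ω → ℝ) (n h q : ℕ),
        Nd K Q l t v n h q → ∃ E : ℕ → ℕ → ℝ, Incr N lam β δ₃ ε Λ B Q l t v n h q E) :
    ∃ L : ℕ, ∀ (Ω : Type) [Fintype Ω] (Q : Law Ω) (l : Ω → Ln) (t v : Ω → ℝ) (n h q : ℕ),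
      L ≤ h → Nd K Q l t v n h q → Vc N lam β (δ₃ / 8) Q l t v n h q → δ₃ * h < q := by
  obtain ⟨B, hB, hI⟩ := hI N (δ₃ / (16 * K)) le_rfl (by positivity)
  have hl2 : 0 < Real.log 2 := Real.log_pos (by norm_num)
  obtain ⟨L1, hL1⟩ := log_small (B + N * Real.log 6 + B) K (η := δ₃ / 8 * Real.log 2) (by positivity)
  refine ⟨max L1 1, ?_⟩
  intro Ω _ Q l t v n h q hL hd hV
  obtain ⟨E, hE⟩ := hI Ω Q l t v n h q hd
  have hh1 : (1 : ℝ) ≤ h := by
    have := (le_max_right L1 1).trans hL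
    exact_mod_cast this
  have h1 := hL1 h n ((le_max_left _ _).trans hL) hd.nK
  have hn0 : (0 : ℝ) ≤ n := Nat.cast_nonneg n
  have hlog : 0 ≤ Real.log ((n : ℝ) + 1) := Real.log_nonneg (by linarith)
  have hlog6 : 0 ≤ Real.log 6 := Real.log_nonneg (by norm_num)
  have hp : Bud.Pl h q 0 (fun _ => 0) (fun _ => 0) :=
    ⟨monotone_const, monotone_const, rfl, Nat.zero_le _, Nat.zero_le _⟩
  have hst := hc_st_zero Q (t := t) (v := v) (fun ω => tb n (l ω))
    (fun ω hω => (hd.good ω hω).2) hd.sl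
  have hcost : Bud.cost Q l t v n (fun _ => 0) (fun _ => 0) 0 ≤ Real.log 6 := by
    unfold Bud.cost
    rw [Finset.sum_range_zero, add_zero]
    exact hst
  have h2 := Bud.start_inc (by linarith : (0 : ℝ) ≤ N) (by positivity) hB hE hV hp ?_
  · simpa using h2
  · have hnK : (h : ℝ) + q ≤ K * h := by
      have e1 := hd.nK
      have e2 : (n : ℝ) = h + q := by rw [hd.nq]; push_cast; ring
      linarith
    unfold Bud.DEL
    have e1 : δ₃ / (16 * K) * (h + q) * Real.log 2 ≤ δ₃ / 16 * h * Real.log 2 := by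
      refine mul_le_mul_of_nonneg_right ?_ hl2.le
      have : δ₃ / (16 * K) * (h + q) ≤ δ₃ / (16 * K) * (K * h) :=
        mul_le_mul_of_nonneg_left hnK (by positivity)
      refine this.trans (le_of_eq ?_)
      field_simp
    have e2 : δ₃ / (16 * K) ≤ δ₃ / 16 := by
      rw [div_le_div_iff_of_pos_left hδ (by positivity) (by norm_num)]
      linarith
    have e3 : δ₃ / (16 * K) * h * Real.log 2 ≤ δ₃ / 16 * h * Real.log 2 :=
      mul_le_mul_of_nonneg_right (mul_le_mul_of_nonneg_right e2 (by linarith)) hl2.le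
    have e4 : N * Bud.cost Q l t v n (fun _ => 0) (fun _ => 0) 0 ≤ N * Real.log 6 :=
      mul_le_mul_of_nonneg_left hcost (by linarith)
    have e5 : (B + N * Real.log 6 + B) * (1 + Real.log (n + 1)) =
        B * (1 + Real.log (n + 1)) + (N * Real.log 6 + B) + (N * Real.log 6 + B) * Real.log (n + 1) := by
      ring
    have e6 : 0 ≤ (N * Real.log 6 + B) * Real.log (n + 1) :=
      mul_nonneg (add_nonneg (mul_nonneg (by linarith) hlog6) hB) hlog
    have e7 : 0 < δ₃ * h * Real.log 2 := by positivity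
    push_cast
    nlinarith

/-- number of blocks -/
theorem blocks {w : ℝ} (hw : 0 < w) {m h : ℕ} (hm : 1 ≤ m) (hh : (m : ℝ) * 2 / w ≤ h) :
    ∃ B : ℕ, 0 < B ∧ (B : ℝ) ≤ w * (h / m) ∧ w / 2 * (h / m) ≤ B ∧ w / 2 * h ≤ ((m * B : ℕ) : ℝ) ∧
      ((m * B : ℕ) : ℝ) ≤ w * h := by
  have hmr : (1 : ℝ) ≤ m := by exact_mod_cast hm
  have hmp : (0 : ℝ) < m := by linarith
  have hhp : (0 : ℝ) < h := lt_of_lt_of_le (by positivity) hh
  set y : ℝ := h / m with hy
  have hy0 : 0 < y := by positivity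
  have hym : y * m = h := by rw [hy]; field_simp
  have hBle : ((⌊w * y⌋₊ : ℕ) : ℝ) ≤ w * y := Nat.floor_le (by positivity)
  have hwy : 2 ≤ w * y := by
    rw [div_le_iff₀ hw] at hh
    have : 2 * m ≤ (w * y) * m := by
      rw [mul_assoc, hym]
      linarith
    exact le_of_mul_le_mul_right this hmp
  have hBge : w / 2 * y ≤ (⌊w * y⌋₊ : ℕ) := by
    have := Nat.lt_floor_add_one (w * y)
    linarith
  refine ⟨⌊w * y⌋₊, ?_, hBle, hBge, ?_, ?_⟩
  · have : (0 : ℝ) < (⌊w * y⌋₊ : ℕ) := by linarith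
    exact_mod_cast this
  · push_cast
    calc w / 2 * h = (w / 2 * y) * m := by rw [mul_assoc, hym]
      _ ≤ (⌊w * y⌋₊ : ℕ) * m := mul_le_mul_of_nonneg_right hBge hmp.le
      _ = m * (⌊w * y⌋₊ : ℕ) := mul_comm _ _
  · push_cast
    calc (m : ℝ) * (⌊w * y⌋₊ : ℕ) = (⌊w * y⌋₊ : ℕ) * m := mul_comm _ _
      _ ≤ (w * y) * m := mul_le_mul_of_nonneg_right hBle hmp.le
      _ = w * h := by rw [mul_assoc, hym]

/-- threshold of the base levels -/
theorem thresh {lam e0 A : ℝ} (hlam : 0 < lam) (he0 : 0 < e0) (hA0 : 0 < A) {m : ℕ}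
    (hm : ((A + 1) / e0 - Real.log e0) / (lam / 16 * Real.log 2) ≤ m) :
    A + 1 ≤ e0 * Real.log (e0 / (1 / 2 : ℝ) ^ (lam / 16 * m)) ∧
      (1 / 2 : ℝ) ^ (lam / 16 * m) < e0 := by
  have hl2 : 0 < Real.log 2 := Real.log_pos (by norm_num)
  have hthr0 : (0 : ℝ) < (1 / 2 : ℝ) ^ (lam / 16 * m) := Real.rpow_pos_of_pos (by norm_num) _
  have hlogthr : Real.log (e0 / (1 / 2 : ℝ) ^ (lam / 16 * m)) =
      Real.log e0 + lam / 16 * m * Real.log 2 := by
    rw [Real.log_div he0.ne' hthr0.ne', Real.log_rpow (by norm_num), one_div, Real.log_inv]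
    ring
  have hX : A + 1 ≤ e0 * Real.log (e0 / (1 / 2 : ℝ) ^ (lam / 16 * m)) := by
    rw [hlogthr]
    rw [div_le_iff₀ (by positivity)] at hm
    have e1 : (A + 1) / e0 ≤ Real.log e0 + lam / 16 * m * Real.log 2 := by
      have : (m : ℝ) * (lam / 16 * Real.log 2) = lam / 16 * m * Real.log 2 := by ring
      linarith
    rw [div_le_iff₀ he0] at e1
    linarith
  refine ⟨hX, ?_⟩
  have e1 : 0 < Real.log (e0 / (1 / 2 : ℝ) ^ (lam / 16 * m)) := by
    by_contra hcon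
    push Not at hcon
    have := mul_nonpos_of_nonneg_of_nonpos he0.le hcon
    linarith
  rw [Real.log_pos_iff (by positivity)] at e1
  rwa [lt_div_iff₀ hthr0, one_mul] at e1

/-- the base levels below `√h` are few -/
theorem levels {lam w : ℝ} (hlam : 0 < lam) (hw : 0 < w) {m h B : ℕ} (hm : 1 ≤ m) (hh : 1 ≤ h)
    (hb : (32 * m / (lam * w)) ^ 2 ≤ (h : ℝ)) (hB : w / 2 * (h / m) ≤ B) {G : Finset ℕ}
    (hG : lam / 4 * B ≤ G.card) :
    lam / 8 * ((m * B : ℕ) : ℝ) ≤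
      m * ((G.filter (fun k => ⌈Real.sqrt h⌉₊ ≤ m * k)).card : ℝ) := by
  have hmr : (1 : ℝ) ≤ m := by exact_mod_cast hm
  have hmp : (0 : ℝ) < m := by linarith
  have hhr : (1 : ℝ) ≤ h := by exact_mod_cast hh
  have hhp : (0 : ℝ) < h := by linarith
  set y : ℝ := h / m with hy
  have hy0 : 0 < y := by positivity
  have hym : y * m = h := by rw [hy]; field_simp
  have hs1 : Real.sqrt h * Real.sqrt h = h := Real.mul_self_sqrt hhp.le
  have hs2 : 1 ≤ Real.sqrt h := by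
    rw [Real.one_le_sqrt]
    exact hhr
  have hs3 : 32 * m / (lam * w) ≤ Real.sqrt h := by
    rw [Real.le_sqrt (by positivity) hhp.le]
    exact hb
  have hc1 : (⌈Real.sqrt h⌉₊ : ℝ) < Real.sqrt h + 1 := Nat.ceil_lt_add_one (Real.sqrt_nonneg _)
  have hc2 : (⌈Real.sqrt h⌉₊ : ℝ) ≤ lam / 8 * B := by
    have e1 : (⌈Real.sqrt h⌉₊ : ℝ) ≤ 2 * Real.sqrt h := by linarith
    have e2 : 2 * Real.sqrt h ≤ lam / 8 * (w / 2 * y) := by
      rw [div_le_iff₀ (by positivity)] at hs3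
      have e4 : 32 * m * Real.sqrt h ≤ Real.sqrt h * (lam * w) * Real.sqrt h :=
        mul_le_mul_of_nonneg_right hs3 (Real.sqrt_nonneg _)
      have e5 : Real.sqrt h * (lam * w) * Real.sqrt h = lam * w * (y * m) := by
        rw [hym]
        calc Real.sqrt h * (lam * w) * Real.sqrt h = lam * w * (Real.sqrt h * Real.sqrt h) := by ring
          _ = _ := by rw [hs1]
      have e6 : (2 * Real.sqrt h) * m ≤ (lam / 8 * (w / 2 * y)) * m := by nlinarith
      exact le_of_mul_le_mul_right e6 hmp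
    have e3 : lam / 8 * (w / 2 * y) ≤ lam / 8 * B := mul_le_mul_of_nonneg_left hB (by positivity)
    linarith
  have hsub : G \ (range ⌈Real.sqrt h⌉₊) ⊆ G.filter (fun k => ⌈Real.sqrt h⌉₊ ≤ m * k) := by
    intro k hk
    rw [mem_sdiff, mem_range, not_lt] at hk
    rw [mem_filter]
    refine ⟨hk.1, hk.2.trans ?_⟩
    exact Nat.le_mul_of_pos_left k (by omega)
  have hcard := card_le_card hsub
  have hcard2 := Finset.le_card_sdiff (range ⌈Real.sqrt h⌉₊) G
  rw [card_range] at hcard2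
  have hcard3 : (G.card : ℝ) ≤ ((G.filter (fun k => ⌈Real.sqrt h⌉₊ ≤ m * k)).card : ℝ) +
      ⌈Real.sqrt h⌉₊ := by
    have e1 : G.card ≤ (G.filter (fun k => ⌈Real.sqrt h⌉₊ ≤ m * k)).card + ⌈Real.sqrt h⌉₊ := by
      omega
    exact_mod_cast e1
  push_cast
  have e7 : lam / 8 * B ≤ ((G.filter (fun k => ⌈Real.sqrt h⌉₊ ≤ m * k)).card : ℝ) := by linarith
  have e8 := mul_le_mul_of_nonneg_left e7 hmp.le
  refine le_trans (le_of_eq ?_) e8
  ring

/-- error of the selected law -/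
theorem err_le {N K lam d' δ cd : ℝ} (hN : 2 ≤ N) (hlam : 0 < lam) (hd' : 0 < d')
    (hδ : δ ≤ d' * lam / 48) {m h B k1 : ℕ} {ln : ℝ} (hm : 1 ≤ m) (hh : 1 ≤ h)
    (hm3 : 144 * (N + 1) * K / (d' * lam) ≤ m) (hcd : cd * ln ≤ d' * lam / 48 * h)
    (hkB : (k1 : ℝ) + B ≤ 3 * K * (h / m)) :
    12 / lam * (δ + d' * lam / 48 + (cd * ln + (N + 1) * (k1 + B)) / h) ≤ d' := by
  have hmr : (1 : ℝ) ≤ m := by exact_mod_cast hm
  have hmp : (0 : ℝ) < m := by linarith
  have hhr : (1 : ℝ) ≤ h := by exact_mod_cast hh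
  have hhp : (0 : ℝ) < h := by linarith
  have hkBh : ((N + 1) * ((k1 : ℝ) + B)) / h ≤ (N + 1) * (3 * K) / m := by
    rw [div_le_div_iff₀ hhp hmp]
    have h1 : (N + 1) * ((k1 : ℝ) + B) * m ≤ (N + 1) * (3 * K * (h / m)) * m :=
      mul_le_mul_of_nonneg_right (mul_le_mul_of_nonneg_left hkB (by linarith)) hmp.le
    refine h1.trans (le_of_eq ?_)
    field_simp
  have e1 : cd * ln / h ≤ d' * lam / 48 := by
    rw [div_le_iff₀ hhp]
    exact hcd
  have e2 : (N + 1) * (3 * K) / m ≤ d' * lam / 48 := by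
    rw [div_le_iff₀ hmp]
    rw [div_le_iff₀ (by positivity)] at hm3
    nlinarith
  rw [add_div]
  have e3 : δ + d' * lam / 48 + (cd * ln / h + (N + 1) * (k1 + B) / h) ≤ 4 * (d' * lam / 48) := by
    linarith
  have hp : 0 < 12 / lam := by positivity
  have e4 := mul_le_mul_of_nonneg_left e3 hp.le
  have e5 : 12 / lam * (4 * (d' * lam / 48)) = d' := by field_simp; norm_num
  linarith

/-- counting of the bad levels -/
theorem bad_le {K lam w X A y : ℝ} (hlam : 0 < lam) (hw : 0 < w)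
    (hA : A = 288 * K * Real.log 2 / (lam ^ 2 * w)) (hA0 : 0 < A) {B k1 : ℕ}
    (hX : A + 1 ≤ X) (hB : w / 2 * y ≤ B) (hkB : (k1 : ℝ) + B ≤ 3 * K * y) :
    12 / lam * (k1 + B) * Real.log 2 ≤ lam / 4 * B * (X - 1) := by
  have hl2 : 0 < Real.log 2 := Real.log_pos (by norm_num)
  have e1 : 12 / lam * ((k1 : ℝ) + B) * Real.log 2 ≤ 12 / lam * (3 * K * y) * Real.log 2 :=
    mul_le_mul_of_nonneg_right (mul_le_mul_of_nonneg_left hkB (by positivity)) hl2.le
  have e2 : lam / 4 * (w / 2 * y) * A ≤ lam / 4 * B * (X - 1) :=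
    mul_le_mul (mul_le_mul_of_nonneg_left hB (by positivity)) (by linarith) hA0.le (by positivity)
  have e3 : lam / 4 * (w / 2 * y) * A = 12 / lam * (3 * K * y) * Real.log 2 := by
    rw [hA]
    field_simp
    ring
  linarith

/-- growth of the end label -/
theorem eta_le {lam w δ cg ln h mB : ℝ} (hlam : 0 < lam) (hδ : δ ≤ lam * w / 128)
    (hh : 0 ≤ h) (hln : 1 ≤ ln) (hc : (cg + Real.log 7) * ln ≤ lam * w / 64 * Real.log 2 * h)
    (hB : w / 2 * h ≤ mB) :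
    (δ + lam * w / 128) * h * Real.log 2 + cg * ln + Real.log 7 ≤ lam / 16 * mB * Real.log 2 := by
  have hl2 : 0 < Real.log 2 := Real.log_pos (by norm_num)
  have hlog7 : 0 ≤ Real.log 7 := Real.log_nonneg (by norm_num)
  have e1 : (δ + lam * w / 128) * h * Real.log 2 ≤ (lam * w / 64) * h * Real.log 2 := by
    refine mul_le_mul_of_nonneg_right (mul_le_mul_of_nonneg_right ?_ hh) hl2.le
    linarith
  have e3 : lam / 16 * (w / 2 * h) * Real.log 2 ≤ lam / 16 * mB * Real.log 2 :=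
    mul_le_mul_of_nonneg_right (mul_le_mul_of_nonneg_left hB (by positivity)) hl2.le
  have e4 : Real.log 7 ≤ Real.log 7 * ln := by nlinarith
  nlinarith

/-- **joint word, law and base levels** -/
theorem pre {N lam β : ℝ} (hN : 2 ≤ N) (h0 : 0 < lam) (h1 : lam < 1) (hG : JFG N lam β)
    {K w d' ε₀ : ℝ} (hK : 1 ≤ K) (hw : 0 < w) (hwK : w ≤ K) (hd' : 0 < d') (hε₀ : 0 < ε₀) :
    ∃ m₀ : ℕ, 0 < m₀ ∧ ∀ m : ℕ, m₀ ≤ m → ∃ δ : ℝ, 0 < δ ∧ ∃ L : ℕ,
      ∀ (Ω : Type) [Fintype Ω] (P : Law Ω) (l : Ω → Ln) (t : Ω → ℝ) (W : Bx Ω) (h q n : ℕ),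
        L ≤ h → (n : ℝ) ≤ K * h → NEx N lam β δ P l t W h q n →
        ∀ (S : Type) (pat : Ω → S) (k1 B : ℕ), (img pat).card ≤ 2 ^ k1 → m * k1 ≤ 2 * n →
        0 < B → (B : ℝ) ≤ w * (h / m) → w / 2 * (h / m) ≤ B → w / 2 * h ≤ ((m * B : ℕ) : ℝ) →
        m * B ≤ q →
        ∃ (X : Ω → Finset ℕ) (E : S) (x : Finset ℕ) (b1 : ℕ) (G : Finset ℕ),
          0 < P.pr (fun ω => (pat ω, X ω)) (E, x) ∧
          Real.log (1 / P.pr (fun ω => (pat ω, X ω)) (E, x)) ≤ 36 * K / lam * Real.log 2 / m * h ∧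
          NEx N lam β d' (P.cond (fun ω => (pat ω, X ω)) (E, x)) l t W h q n ∧
          Real.sqrt h ≤ b1 ∧ (∀ k ∈ G, b1 ≤ m * k ∧ m * k ≤ m * B) ∧
          lam / 8 * ((m * B : ℕ) : ℝ) ≤ m * (G.card : ℝ) ∧
          ∀ k ∈ G, Mic.colp (P.cond (fun ω => (pat ω, X ω)) (E, x))
            (fun ω => fl1 (m * k + m) ((l ω).2 0))
            (fun ω => (cel l t (fun ω => Real.tan (W.θ ω)) h q ω, fl1 (m * k) ((l ω).2 0))) ≤ ε₀ := by
  have hl2 : 0 < Real.log 2 := Real.log_pos (by norm_num)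
  obtain ⟨cd, hcd0, hd1⟩ := TopD.d1 (N := N) (by linarith) h0 h1.le hG (ε := d' * lam / 48)
    (by positivity)
  obtain ⟨cg, hcg0, hgr⟩ := LinkC.grow_nex ⟨h0.le, h1.le⟩ hG (ε := lam * w / 128) (by positivity)
  obtain ⟨e0, he0⟩ : ∃ e0 : ℝ, e0 = ε₀ / 2 := ⟨_, rfl⟩
  have he00 : 0 < e0 := by rw [he0]; positivity
  obtain ⟨A, hA⟩ : ∃ A : ℝ, A = 288 * K * Real.log 2 / (lam ^ 2 * w) := ⟨_, rfl⟩
  have hA0 : 0 < A := by rw [hA]; positivity
  obtain ⟨m1, hm1⟩ := exists_nat_ge (16 / lam)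
  obtain ⟨m2, hm2⟩ := exists_nat_ge (((A + 1) / e0 - Real.log e0) / (lam / 16 * Real.log 2))
  obtain ⟨m3, hm3⟩ := exists_nat_ge (144 * (N + 1) * K / (d' * lam))
  refine ⟨max 1 (max m1 (max m2 m3)), by omega, ?_⟩
  intro m hm
  have hm0 : 1 ≤ m := by omega
  have hm1' : 16 / lam ≤ m := hm1.trans (by exact_mod_cast (by omega : m1 ≤ m))
  have hm2' : ((A + 1) / e0 - Real.log e0) / (lam / 16 * Real.log 2) ≤ m :=
    hm2.trans (by exact_mod_cast (by omega : m2 ≤ m))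
  have hm3' : 144 * (N + 1) * K / (d' * lam) ≤ m := hm3.trans (by exact_mod_cast (by omega : m3 ≤ m))
  obtain ⟨L1, hL1⟩ := log_small (cg + Real.log 7) K (η := lam * w / 64 * Real.log 2) (by positivity)
  obtain ⟨L2, hL2⟩ := log_small cd K (η := d' * lam / 48) (by positivity)
  obtain ⟨L4, hL4⟩ := exists_nat_ge ((32 * m / (lam * w)) ^ 2)
  obtain ⟨δ, hδ⟩ : ∃ δ : ℝ, δ = min (lam * w / 128) (d' * lam / 48) := ⟨_, rfl⟩
  have hδ1 : δ ≤ lam * w / 128 := hδ ▸ min_le_left _ _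
  have hδ2 : δ ≤ d' * lam / 48 := hδ ▸ min_le_right _ _
  have hδ0 : 0 < δ := by rw [hδ]; positivity
  refine ⟨δ, hδ0, max 1 (max L1 (max L2 L4)), ?_⟩
  intro Ω _ P l t W h q n hL hn hx S pat k1 B hk1 hk1n hB0 hBle hBge hmB1 hmBq
  have hh1 : 1 ≤ h := by omega
  have b4' : (32 * m / (lam * w)) ^ 2 ≤ (h : ℝ) := hL4.trans (by exact_mod_cast (by omega : L4 ≤ h))
  have hmp : (0 : ℝ) < m := by exact_mod_cast (by omega : 0 < m)
  have hhp : (0 : ℝ) < h := by exact_mod_cast (by omega : 0 < h)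
  have hlog : 0 ≤ Real.log ((n : ℝ) + 1) :=
    Real.log_nonneg (by have : (0 : ℝ) ≤ n := Nat.cast_nonneg n; linarith)
  have hk1r : (k1 : ℝ) ≤ 2 * K * (h / m) := by
    have e1 : (m : ℝ) * k1 ≤ 2 * n := by exact_mod_cast hk1n
    have e2 : (k1 : ℝ) * m ≤ (2 * K * (h / m)) * m := by
      have : (2 * K * (h / m)) * (m : ℝ) = 2 * (K * h) := by field_simp
      rw [this]
      linarith
    exact le_of_mul_le_mul_right e2 hmp
  have hBK : (B : ℝ) ≤ K * (h / m) := hBle.trans (mul_le_mul_of_nonneg_right hwK (by positivity))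
  have hkB : (k1 : ℝ) + B ≤ 3 * K * (h / m) := by linarith
  obtain ⟨hX, hthr⟩ := thresh h0 he00 hA0 hm2'
  have heta := eta_le (cg := cg) (ln := 1 + Real.log (n + 1)) h0 hδ1 hhp.le (by linarith)
    (hL1 h n (by omega) hn) hmB1
  have hdd := err_le hN h0 hd' hδ2 hm0 hh1 hm3' (hL2 h n (by omega) hn) hkB
  have hbad := bad_le h0 hw hA hA0 hX hBge hkB
  have hgrow := hgr Ω P l t W h q n (m * B) δ hx hmBq
  push_cast at heta hgrow
  obtain ⟨E, x, G, p, hp0, hp, hlp, hne, hG1, hG2, hG3⟩ := hd1 Ω P l t W h q n δ hx hδ0.le hh1 S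
    (ℤ × ℤ × ℤ × ℤ × ℤ × ℤ) pat (cel l t (fun ω => Real.tan (W.θ ω)) h q) m B k1 (lam / 16)
    ((δ + lam * w / 128) * h * Real.log 2 + cg * (1 + Real.log (n + 1))) e0 d'
    hk1 (by omega) hB0 (by positivity) le_rfl (by
      rw [div_le_iff₀ h0] at hm1'
      linarith) hgrow heta hdd he00 hthr hbad
  rw [hp] at hlp hp0
  refine ⟨_, E, x, ⌈Real.sqrt h⌉₊, G.filter (fun k => ⌈Real.sqrt h⌉₊ ≤ m * k), hp0, ?_, hne,
    Nat.le_ceil _, ?_, levels h0 hw hm0 hh1 b4' hBge hG2, ?_⟩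
  · refine hlp.trans ?_
    have e1 : 12 / lam * (k1 + B) * Real.log 2 ≤ 12 / lam * (3 * K * (h / m)) * Real.log 2 :=
      mul_le_mul_of_nonneg_right (mul_le_mul_of_nonneg_left hkB (by positivity)) hl2.le
    refine e1.trans (le_of_eq ?_)
    ring
  · intro k hk
    rw [mem_filter] at hk
    exact ⟨hk.2, Nat.mul_le_mul_left m (mem_range.1 (hG1 hk.1)).le⟩
  · intro k hk
    have h2 := hG3 k (mem_filter.1 hk).1
    refine le_trans h2 (le_of_eq ?_)
    rw [he0]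
    ring

/-! ### The numerical inequalities -/

/-- total budget -/
theorem num_del {N ε B d c η K : ℝ} {J m h q n : ℕ} (hN : 2 ≤ N) (hη : 0 < η)
    (hε : 0 ≤ ε) (hB : 0 ≤ B) (hc : 0 ≤ c) (hm : 1 ≤ m) (hJ : 1 ≤ J) (hn : n = h + q)
    (hnK : (n : ℝ) ≤ K * h) (h1 : d ≤ η / 8) (h2 : (1 + 4 * K) * ε ≤ η / 8)
    (h3 : N * c * K ≤ η / 8) (h4 : 8 * N ≤ η * J) (h5 : 16 * K * B ≤ η * Real.log 2 * m)
    (h6 : (B + N * Real.log 6 + 8 * B) * (1 + Real.log (n + 1)) ≤ η / 8 * Real.log 2 * h) :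
    (d + ε) * h * Real.log 2 + B * (1 + Real.log (n + 1)) +
      N * (c * q * Real.log 2 + (h : ℝ) / J * Real.log 2 + Real.log 6) +
      4 * (ε * (h + q) * Real.log 2) + (2 * ((n : ℝ) / m) + 8) * B ≤ η * h * Real.log 2 := by
  have hl2 : 0 < Real.log 2 := Real.log_pos (by norm_num)
  have hl6 : 0 ≤ Real.log 6 := Real.log_nonneg (by norm_num)
  have hmp : (0 : ℝ) < m := by exact_mod_cast (by omega : 0 < m)
  have hJp : (0 : ℝ) < J := by exact_mod_cast (by omega : 0 < J)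
  have hh0 : (0 : ℝ) ≤ h := Nat.cast_nonneg h
  have hq0 : (0 : ℝ) ≤ q := Nat.cast_nonneg q
  have hn0 : (0 : ℝ) ≤ n := Nat.cast_nonneg n
  have hlog : 0 ≤ Real.log ((n : ℝ) + 1) := Real.log_nonneg (by linarith)
  have hhq : (h : ℝ) + q ≤ K * h := by
    have e2 : (n : ℝ) = h + q := by rw [hn]; push_cast; ring
    linarith
  set X : ℝ := h * Real.log 2 with hX
  have hX0 : 0 ≤ X := mul_nonneg hh0 hl2.le
  have t1 : d * X ≤ η / 8 * X := mul_le_mul_of_nonneg_right h1 hX0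
  have t2 : (1 + 4 * K) * ε * X ≤ η / 8 * X := mul_le_mul_of_nonneg_right h2 hX0
  have t2' : 4 * (ε * (h + q) * Real.log 2) ≤ 4 * K * ε * X := by
    have e1 : ε * (h + q) ≤ ε * (K * h) := mul_le_mul_of_nonneg_left hhq hε
    have e2 := mul_le_mul_of_nonneg_right e1 hl2.le
    rw [hX]
    linarith
  have t3 : N * c * K * X ≤ η / 8 * X := mul_le_mul_of_nonneg_right h3 hX0
  have t3' : N * (c * q * Real.log 2) ≤ N * c * K * X := by
    have e1 : (q : ℝ) ≤ K * h := by linarith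
    have e2 : N * c * q ≤ N * c * (K * h) :=
      mul_le_mul_of_nonneg_left e1 (mul_nonneg (by linarith) hc)
    have e3 := mul_le_mul_of_nonneg_right e2 hl2.le
    rw [hX]
    linarith
  have t4 : N * ((h : ℝ) / J * Real.log 2) ≤ η / 8 * X := by
    have e1 : N / J ≤ η / 8 := by
      rw [div_le_iff₀ hJp]
      linarith
    have e2 := mul_le_mul_of_nonneg_right e1 hX0
    refine le_trans (le_of_eq ?_) e2
    rw [hX]
    ring
  have t5 : 2 * ((n : ℝ) / m) * B ≤ η / 8 * X := by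
    have e1 : (n : ℝ) / m ≤ K * h / m := div_le_div_of_nonneg_right hnK hmp.le
    have e2 : 2 * ((n : ℝ) / m) * B ≤ 2 * (K * h / m) * B :=
      mul_le_mul_of_nonneg_right (by linarith) hB
    have e3 : 2 * (K * h / m) * B = (16 * K * B) / m * h / 8 := by ring
    have e4 : (16 * K * B) / m ≤ η * Real.log 2 := by
      rw [div_le_iff₀ hmp]
      exact h5
    have e5 := mul_le_mul_of_nonneg_right e4 hh0
    rw [hX]
    linarith
  have t6 : B * (1 + Real.log (n + 1)) + N * Real.log 6 + 8 * B ≤ η / 8 * X := by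
    have e1 : (B + N * Real.log 6 + 8 * B) * (1 + Real.log (n + 1)) =
        B * (1 + Real.log (n + 1)) + (N * Real.log 6 + 8 * B) +
          (N * Real.log 6 + 8 * B) * Real.log (n + 1) := by ring
    have e2 : 0 ≤ (N * Real.log 6 + 8 * B) * Real.log (n + 1) :=
      mul_nonneg (add_nonneg (mul_nonneg (by linarith) hl6) (by linarith)) hlog
    have e3 : η / 8 * X = η / 8 * Real.log 2 * h := by rw [hX]; ring
    linarith
  have t7 : η * h * Real.log 2 = 8 * (η / 8 * X) := by rw [hX]; ring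
  have t8 : 0 ≤ η / 8 * X := by positivity
  have t9 : (d + ε) * h * Real.log 2 = d * X + ε * X := by rw [hX]; ring
  rw [t7, t9]
  have t10 : (1 + 4 * K) * ε * X = ε * X + 4 * K * ε * X := by ring
  nlinarith

/-- tail -/
theorem num_t {lam δ θ η w c Λ K : ℝ} {m h b2 : ℕ} (hlam : 0 < lam) (hlam1 : lam < 1) (hδ0 : 0 < δ)
    (hδ1 : δ ≤ 1) (hθ : 0 < θ) (hm : 1 ≤ m) (hc : 0 < c)
    (hΛ : 4000 ≤ c * Λ) (h1 : η ≤ δ * θ) (h2 : η ≤ lam * θ / 16) (h3 : w ≤ δ * θ / 4)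
    (h4 : w ≤ lam * θ / 64) (h5 : (m : ℝ) ≤ δ * lam * θ / 1024 * h)
    (h6 : 36 * K / lam * Real.log 2 / m ≤ c * Real.log 2 * θ / 256)
    (h7 : 30 / (c * Real.log 2) ≤ θ / 8 * h) (hb : (b2 : ℝ) ≤ w * h) (hh : 1 ≤ h) :
    η * h * Real.log 2 ≤ δ * (θ * h) * Real.log 2 ∧ (b2 : ℝ) + 3 * m ≤ δ * (θ * h) ∧
    η * h * Real.log 2 + 2 * ((b2 : ℝ) + 4 * m) * Real.log 2 ≤ lam / 8 * (θ * h) * Real.log 2 ∧
    2 * ((12 * (36 * K / lam * Real.log 2 / m * h +
      (η * h * Real.log 2 + 2 * ((b2 : ℝ) + 4 * m) * Real.log 2) / Λ) + 15) /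
      (c * Real.log 2)) + b2 + 8 * m ≤ θ * h := by
  have hl2 : 0 < Real.log 2 := Real.log_pos (by norm_num)
  have hhr : (1 : ℝ) ≤ h := by exact_mod_cast hh
  have hhp : (0 : ℝ) < h := by linarith
  have hmp : (0 : ℝ) < m := by exact_mod_cast (by omega : 0 < m)
  have hΛ0 : 0 < Λ := by
    by_contra hcon
    push Not at hcon
    have := mul_nonpos_of_nonneg_of_nonpos hc.le hcon
    linarith
  have g5 : (m : ℝ) ≤ lam * θ / 1024 * h := by
    refine h5.trans (mul_le_mul_of_nonneg_right ?_ hhp.le)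
    have : δ * (lam * θ) ≤ 1 * (lam * θ) := mul_le_mul_of_nonneg_right hδ1 (by positivity)
    linarith
  have g5' : (m : ℝ) ≤ δ * θ / 1024 * h := by
    refine h5.trans (mul_le_mul_of_nonneg_right ?_ hhp.le)
    have : lam * (δ * θ) ≤ 1 * (δ * θ) := mul_le_mul_of_nonneg_right hlam1.le (by positivity)
    linarith
  have g5'' : (m : ℝ) ≤ θ / 1024 * h := by
    refine g5.trans (mul_le_mul_of_nonneg_right ?_ hhp.le)
    have : lam * θ ≤ 1 * θ := mul_le_mul_of_nonneg_right hlam1.le hθ.le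
    linarith
  have gb1 : (b2 : ℝ) ≤ δ * θ / 4 * h := hb.trans (mul_le_mul_of_nonneg_right h3 hhp.le)
  have gb2 : (b2 : ℝ) ≤ lam * θ / 64 * h := hb.trans (mul_le_mul_of_nonneg_right h4 hhp.le)
  have gb3 : (b2 : ℝ) ≤ θ / 64 * h := by
    refine gb2.trans (mul_le_mul_of_nonneg_right ?_ hhp.le)
    have : lam * θ ≤ 1 * θ := mul_le_mul_of_nonneg_right hlam1.le hθ.le
    linarith
  have e3 : η * h + 2 * ((b2 : ℝ) + 4 * m) ≤ lam / 8 * (θ * h) := by
    have := mul_le_mul_of_nonneg_right h2 hhp.le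
    nlinarith
  have e3' := mul_le_mul_of_nonneg_right e3 hl2.le
  refine ⟨?_, ?_, by linarith, ?_⟩
  · have := mul_le_mul_of_nonneg_right (mul_le_mul_of_nonneg_right h1 hhp.le) hl2.le
    linarith
  · nlinarith
  · set Y : ℝ := η * h * Real.log 2 + 2 * ((b2 : ℝ) + 4 * m) * Real.log 2 with hY
    have hY1 : Y ≤ θ / 4 * h * Real.log 2 := by
      have : lam / 8 * (θ * h) ≤ θ / 4 * h := by
        have a1 := mul_le_mul_of_nonneg_right hlam1.le (show 0 ≤ θ / 8 * h by positivity)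
        have a2 : 0 ≤ θ * h := by positivity
        linarith
      have := mul_le_mul_of_nonneg_right this hl2.le
      rw [hY]
      linarith
    have a1 : 24 * (36 * K / lam * Real.log 2 / m * h) / (c * Real.log 2) ≤ θ / 8 * h := by
      rw [div_le_iff₀ (by positivity)]
      have := mul_le_mul_of_nonneg_right h6 hhp.le
      have h8 : 0 ≤ c * Real.log 2 * θ * h := by positivity
      nlinarith
    have a2 : 24 * (Y / Λ) / (c * Real.log 2) ≤ θ / 8 * h := by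
      have e1 : 24 * (Y / Λ) / (c * Real.log 2) = 24 * Y / (c * Λ * Real.log 2) := by
        field_simp
      rw [e1, div_le_iff₀ (by positivity)]
      have e2 : θ / 8 * h * (4000 * Real.log 2) ≤ θ / 8 * h * (c * Λ * Real.log 2) :=
        mul_le_mul_of_nonneg_left (mul_le_mul_of_nonneg_right hΛ hl2.le) (by positivity)
      have e3 : 0 ≤ θ * h * Real.log 2 := by positivity
      nlinarith
    have a3 : 2 * ((12 * (36 * K / lam * Real.log 2 / m * h + Y / Λ) + 15) / (c * Real.log 2)) =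
        24 * (36 * K / lam * Real.log 2 / m * h) / (c * Real.log 2) +
          24 * (Y / Λ) / (c * Real.log 2) + 30 / (c * Real.log 2) := by
      field_simp
      ring
    rw [a3]
    nlinarith

/-- collisions of the slope -/
theorem num_v {c e₁ K lam : ℝ} {m h n J : ℕ} (hK : 1 ≤ K) (he : 0 < e₁) (hlam : 0 < lam)
    (hm : 1 ≤ m) (hh : 1 ≤ h) (hnK : (n : ℝ) ≤ K * h)
    (h1 : 8 * ((J + 1) * (36 * K / lam * Real.log 2) + K) / e₁ ≤
      Real.log (e₁ / (8 * K)) + c * m * Real.log 2) :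
    ∃ e : ℝ, PathD.th c m < e ∧ (n : ℝ) / m * e +
      ((J + 1) * (36 * K / lam * Real.log 2 / m * h) + (n : ℝ) / m) /
        Real.log (e / PathD.th c m) ≤ e₁ * ((h : ℝ) / (2 * m)) := by
  have hl2 : 0 < Real.log 2 := Real.log_pos (by norm_num)
  have hhp : (0 : ℝ) < h := by exact_mod_cast (by omega : 0 < h)
  have hmp : (0 : ℝ) < m := by exact_mod_cast (by omega : 0 < m)
  have hthr0 : 0 < PathD.th c m := Real.exp_pos _
  have he0 : 0 < e₁ / (8 * K) := by positivity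
  have hlog : Real.log (e₁ / (8 * K) / PathD.th c m) =
      Real.log (e₁ / (8 * K)) + c * m * Real.log 2 := by
    rw [Real.log_div he0.ne' hthr0.ne']
    unfold PathD.th
    rw [Real.log_exp]
    ring
  set X : ℝ := Real.log (e₁ / (8 * K) / PathD.th c m) with hX
  set F : ℝ := (J + 1) * (36 * K / lam * Real.log 2) + K with hF
  have hF0 : 0 < F := by positivity
  rw [← hlog, div_le_iff₀ he] at h1
  have hX0 : 0 < X := by
    by_contra hcon
    push Not at hcon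
    have := mul_nonpos_of_nonpos_of_nonneg hcon he.le
    linarith
  refine ⟨e₁ / (8 * K), ?_, ?_⟩
  · rw [hX, Real.log_pos_iff (by positivity)] at hX0
    rwa [lt_div_iff₀ hthr0, one_mul] at hX0
  · have e1 : (n : ℝ) / m * (e₁ / (8 * K)) ≤ e₁ / 8 * (h / m) := by
      have : (n : ℝ) / m ≤ K * h / m := div_le_div_of_nonneg_right hnK hmp.le
      have := mul_le_mul_of_nonneg_right this he0.le
      refine this.trans (le_of_eq ?_)
      field_simp
    have e2 : ((J + 1) * (36 * K / lam * Real.log 2 / m * h) + (n : ℝ) / m) / X ≤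
        e₁ / 8 * (h / m) := by
      rw [div_le_iff₀ hX0]
      have e3 : (J + 1) * (36 * K / lam * Real.log 2 / m * h) + (n : ℝ) / m ≤ F * (h / m) := by
        have : (n : ℝ) / m ≤ K * h / m := div_le_div_of_nonneg_right hnK hmp.le
        have e4 : F * (h / m) = (J + 1) * (36 * K / lam * Real.log 2 / m * h) + K * h / m := by
          rw [hF]
          ring
        linarith
      have e5 : F * (h / m) ≤ (X * e₁ / 8) * (h / m) :=
        mul_le_mul_of_nonneg_right (by linarith) (by positivity)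
      linarith
    have e6 : e₁ * ((h : ℝ) / (2 * m)) = 4 * (e₁ / 8 * (h / m)) := by
      field_simp
      ring
    rw [e6]
    have : 0 ≤ e₁ / 8 * ((h : ℝ) / m) := by positivity
    linarith

/-- long runs -/
theorem num_r {lam c Λ η e₁ K : ℝ} {m h M : ℕ} (hlam : 0 < lam) (hlam1 : lam < 1)
    (hc : 0 < c) (hη : 0 < η) (he : 0 < e₁) (hm : 1 ≤ m) (hΛ : 4000 ≤ c * Λ)
    (h1 : η ≤ e₁ * lam / 404)
    (h2 : 1000 / c * (36 * K / lam * Real.log 2 / m) ≤ e₁ / 4 * Real.log 2)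
    (h3 : (M : ℝ) ≤ e₁ / 8 * (h / m)) :
    M + (32 / (lam * (m * Real.log 2)) * (η * h * Real.log 2) + 96 / (c * (m * Real.log 2)) *
      (36 * K / lam * Real.log 2 / m * h + η * h * Real.log 2 / Λ)) ≤ e₁ * ((h : ℝ) / (2 * m)) := by
  have hl2 : 0 < Real.log 2 := Real.log_pos (by norm_num)
  have hh0 : (0 : ℝ) ≤ h := Nat.cast_nonneg h
  have hmp : (0 : ℝ) < m := by exact_mod_cast (by omega : 0 < m)
  have hΛ0 : 0 < Λ := by
    by_contra hcon
    push Not at hcon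
    have := mul_nonpos_of_nonneg_of_nonpos hc.le hcon
    linarith
  set y : ℝ := h / m with hy
  have hy0 : 0 ≤ y := by positivity
  have b1 : 32 / (lam * (m * Real.log 2)) * (η * h * Real.log 2) ≤ e₁ / 8 * y := by
    have a1 : 32 / (lam * (m * Real.log 2)) * (η * h * Real.log 2) = 32 * η / lam * y := by
      rw [hy]
      field_simp
    have a2 : 32 * η / lam ≤ e₁ / 8 := by
      rw [div_le_iff₀ hlam]
      nlinarith [mul_pos he hlam]
    rw [a1]
    exact mul_le_mul_of_nonneg_right a2 hy0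
  have b2 : 96 / (c * (m * Real.log 2)) * (η * h * Real.log 2 / Λ) ≤ e₁ / 8 * y := by
    have a1 : 96 / (c * (m * Real.log 2)) * (η * h * Real.log 2 / Λ) = 96 * η / (c * Λ) * y := by
      rw [hy]
      field_simp
    have a2 : 96 * η / (c * Λ) ≤ e₁ / 8 := by
      rw [div_le_iff₀ (by linarith)]
      have a3 : e₁ / 8 * 4000 ≤ e₁ / 8 * (c * Λ) := mul_le_mul_of_nonneg_left hΛ (by positivity)
      have a4 : e₁ * lam ≤ e₁ * 1 := mul_le_mul_of_nonneg_left hlam1.le he.le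
      linarith
    rw [a1]
    exact mul_le_mul_of_nonneg_right a2 hy0
  have b3 : 96 / (c * (m * Real.log 2)) * (36 * K / lam * Real.log 2 / m * h) ≤ e₁ / 8 * y := by
    have a1 : 96 / (c * (m * Real.log 2)) * (36 * K / lam * Real.log 2 / m * h) =
        (1000 / c * (36 * K / lam * Real.log 2 / m)) * (96 / (1000 * Real.log 2)) * y := by
      rw [hy]
      field_simp
    have a2 : (1000 / c * (36 * K / lam * Real.log 2 / m)) * (96 / (1000 * Real.log 2)) ≤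
        (e₁ / 4 * Real.log 2) * (96 / (1000 * Real.log 2)) :=
      mul_le_mul_of_nonneg_right h2 (by positivity)
    have a3 : (e₁ / 4 * Real.log 2) * (96 / (1000 * Real.log 2)) = e₁ / 4 * (96 / 1000) := by
      field_simp
    rw [a1]
    refine mul_le_mul_of_nonneg_right ?_ hy0
    linarith
  have b4 : e₁ * ((h : ℝ) / (2 * m)) = 4 * (e₁ / 8 * y) := by
    rw [hy]
    field_simp
    ring
  rw [b4, mul_add]
  linarith

/-- conditions on the length of a block -/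
structure MC (N lam β K η c B e₁ θ : ℝ) (J m : ℕ) : Prop where
  c1 : 16 * K * B ≤ η * Real.log 2 * m
  c2 : N * Real.log 2 + B ≤ e₁ * β / 16 * (m * Real.log 2)
  c3 : Real.exp (-(β / (2 * N) * (m * Real.log 2))) ≤ e₁ / 2
  c4 : 8 * ((J + 1) * (36 * K / lam * Real.log 2) + K) / e₁ ≤
    Real.log (e₁ / (8 * K)) + c * m * Real.log 2
  c5 : 4000 ≤ c * (m * Real.log 2)
  c6 : 36 * K / lam * Real.log 2 / m ≤ c * Real.log 2 * θ / 256
  c7 : 1000 / c * (36 * K / lam * Real.log 2 / m) ≤ e₁ / 4 * Real.log 2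

/-- long blocks satisfy them -/
theorem exists_mc {N lam β K η c B e₁ θ : ℝ} (J : ℕ) (hN : 2 ≤ N) (hβ : 0 < β)
    (hη : 0 < η) (hc : 0 < c) (he : 0 < e₁) (hθ : 0 < θ) :
    ∃ m₀ : ℕ, ∀ m : ℕ, m₀ ≤ m → MC N lam β K η c B e₁ θ J m := by
  have hl2 : 0 < Real.log 2 := Real.log_pos (by norm_num)
  obtain ⟨k1, h1⟩ := exists_nat_ge (16 * K * B / (η * Real.log 2))
  obtain ⟨k2, h2⟩ := exists_nat_ge ((N * Real.log 2 + B) / (e₁ * β / 16 * Real.log 2))
  obtain ⟨k3, h3⟩ := exists_nat_ge (-Real.log (e₁ / 2) / (β / (2 * N) * Real.log 2))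
  obtain ⟨k4, h4⟩ := exists_nat_ge ((8 * ((J + 1) * (36 * K / lam * Real.log 2) + K) / e₁ -
    Real.log (e₁ / (8 * K))) / (c * Real.log 2))
  obtain ⟨k5, h5⟩ := exists_nat_ge (4000 / (c * Real.log 2))
  obtain ⟨k6, h6⟩ := exists_nat_ge (36 * K / lam * Real.log 2 / (c * Real.log 2 * θ / 256))
  obtain ⟨k7, h7⟩ := exists_nat_ge (1000 / c * (36 * K / lam * Real.log 2) / (e₁ / 4 * Real.log 2))
  refine ⟨max 1 (max k1 (max k2 (max k3 (max k4 (max k5 (max k6 k7)))))), fun m hm => ?_⟩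
  have hm1 : 1 ≤ m := by omega
  have hmp : (0 : ℝ) < m := by exact_mod_cast (by omega : 0 < m)
  have g1 : 16 * K * B / (η * Real.log 2) ≤ (m : ℝ) :=
    h1.trans (by exact_mod_cast (by omega : k1 ≤ m))
  have g2 : (N * Real.log 2 + B) / (e₁ * β / 16 * Real.log 2) ≤ (m : ℝ) :=
    h2.trans (by exact_mod_cast (by omega : k2 ≤ m))
  have g3 : -Real.log (e₁ / 2) / (β / (2 * N) * Real.log 2) ≤ (m : ℝ) :=
    h3.trans (by exact_mod_cast (by omega : k3 ≤ m))
  have g4 : (8 * ((J + 1) * (36 * K / lam * Real.log 2) + K) / e₁ -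
    Real.log (e₁ / (8 * K))) / (c * Real.log 2) ≤ (m : ℝ) :=
    h4.trans (by exact_mod_cast (by omega : k4 ≤ m))
  have g5 : 4000 / (c * Real.log 2) ≤ (m : ℝ) := h5.trans (by exact_mod_cast (by omega : k5 ≤ m))
  have g6 : 36 * K / lam * Real.log 2 / (c * Real.log 2 * θ / 256) ≤ (m : ℝ) :=
    h6.trans (by exact_mod_cast (by omega : k6 ≤ m))
  have g7 : 1000 / c * (36 * K / lam * Real.log 2) / (e₁ / 4 * Real.log 2) ≤ (m : ℝ) :=
    h7.trans (by exact_mod_cast (by omega : k7 ≤ m))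
  rw [div_le_iff₀ (by positivity)] at g1 g2 g3 g4 g5 g6 g7
  refine ⟨by linarith, by linarith, ?_, by linarith, by linarith, ?_, ?_⟩
  · rw [← Real.le_log_iff_exp_le (by positivity)]
    linarith
  · rw [div_le_iff₀ hmp]
    linarith
  · rw [← mul_div_assoc, div_le_iff₀ hmp]
    linarith

/-- **the numerical inequalities** -/
theorem num {N lam β δ ε Λ B d c e₁ θ η w K : ℝ} {n h q m J b2 M : ℕ} (hN : 2 ≤ N)
    (h0 : 0 < lam) (h1 : lam < 1) (h2 : lam < β) (h3 : β ≤ 2) (hδ0 : 0 < δ) (hδ1 : δ ≤ 1)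
    (hε : 0 ≤ ε) (hB : 0 ≤ B) (hNΛ : N ≤ Λ) (hc : 0 < c) (he : 0 < e₁) (hm : 1 ≤ m) (hJ : 1 ≤ J)
    (hM2 : 2 ≤ M) (hM : 1000 ≤ lam * M) (hθ : 0 < θ) (hθ1 : θ ≤ 1 / 2) (hK : 1 ≤ K) (hη : 0 < η)
    (hΛ : 4000 ≤ c * Λ) (hn : n = h + q) (hnK : (n : ℝ) ≤ K * h)
    (e1 : η ≤ δ * θ) (e2 : η ≤ lam * θ / 16) (e3 : η ≤ e₁ * β / 32) (e4 : η ≤ e₁ * lam / 404)
    (e5 : d ≤ η / 8) (e6 : (1 + 4 * K) * ε ≤ η / 8) (e7 : N * c * K ≤ η / 8) (e8 : 8 * N ≤ η * J)
    (e9 : ε ≤ e₁ * β / 16) (w1 : w ≤ δ * θ / 4) (w2 : w ≤ lam * θ / 64)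
    (hmc : MC N lam β K η c B e₁ θ J m) (hb : (b2 : ℝ) ≤ w * h) (hh : 1 ≤ h)
    (l1 : (B + N * Real.log 6 + 8 * B) * (1 + Real.log (n + 1)) ≤ η / 8 * Real.log 2 * h)
    (l2 : (m : ℝ) ≤ δ * lam * θ / 1024 * h) (l3 : 30 / (c * Real.log 2) ≤ θ / 8 * h)
    (l7 : (M : ℝ) ≤ e₁ / 8 * (h / m)) :
    Core.CoreN N lam β δ ε Λ B d c e₁ θ (36 * K / lam * Real.log 2 / m * h) (η * h * Real.log 2)
      n h q m J b2 M := by
  have hl2 : 0 < Real.log 2 := Real.log_pos (by norm_num)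
  have hh0 : (0 : ℝ) ≤ h := Nat.cast_nonneg h
  obtain ⟨t1, t2, t3, t4⟩ := num_t h0 h1 hδ0 hδ1 hθ hm hc hΛ e1 e2 w1 w2 l2 hmc.c6 l3 hb hh
  exact
    { N2 := hN, lam0 := h0, lam1 := h1, lamβ := h2, β2 := h3, δ0 := hδ0, δ1 := hδ1, ε0 := hε,
      B0 := hB, NΛ := hNΛ, c0 := hc, ε₁0 := he, m1 := hm, J1 := hJ, M2 := hM2,
      Lp0 := by positivity
      θ0 := hθ, θ1 := hθ1
      del := num_del hN hη hε hB hc.le hm hJ hn hnK e5 e6 e7 e8 hmc.c1 l1
      t1 := t1, t2 := t2, t3 := t3, t4 := t4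
      a1 := e9
      a2 := by
        have := mul_le_mul_of_nonneg_right e3 (mul_nonneg hh0 hl2.le)
        linarith
      a3 := hmc.c2, a4 := hmc.c3
      v1 := num_v hK he h0 hm hh hnK hmc.c4
      r1 := by linarith
      r2 := hΛ
      r3 := hmc.c5
      r4 := num_r h0 h1 hc hη he hm hΛ e4 hmc.c7 l7
      r5 := by
        have a1 : 1 * ε ≤ (1 + 4 * K) * ε := mul_le_mul_of_nonneg_right (by linarith) hε
        have a2 : lam * θ ≤ lam * (1 / 2) := mul_le_mul_of_nonneg_left hθ1 h0.le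
        linarith
      r6 := by
        have a1 : 1 * B ≤ (16 * K) * B := mul_le_mul_of_nonneg_right (by linarith) hB
        have a3 : δ * θ ≤ 1 * 1 := mul_le_mul hδ1 (by linarith) hθ.le (by norm_num)
        have a2 : η * (Real.log 2 * m) ≤ 1 * (Real.log 2 * m) :=
          mul_le_mul_of_nonneg_right (by linarith) (by positivity)
        have a4 := hmc.c1
        linarith }

/-! ### Assembly -/

/-- the increments with a smaller `δ` -/
theorem incr_mono {Ω : Type} [Fintype Ω] {N lam β δ δ' ε Λ B : ℝ} {Q : Law Ω} {l : Ω → Ln}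
    {t v : Ω → ℝ} {n h q : ℕ} {E : ℕ → ℕ → ℝ} (H : Incr N lam β δ ε Λ B Q l t v n h q E)
    (hd : δ' ≤ δ) : Incr N lam β δ' ε Λ B Q l t v n h q E where
  start := H.start
  fin := H.fin
  win := H.win
  ext := H.ext
  event := H.event
  lip := H.lip
  tail := by
    intro a r ha hr hqr
    have hl2 : 0 < Real.log 2 := Real.log_pos (by norm_num)
    have h1 : (0 : ℝ) ≤ (h : ℝ) - a := by
      have : (a : ℝ) ≤ h := by exact_mod_cast ha
      linarith
    have h2 := H.tail a r ha hr (hqr.trans (mul_le_mul_of_nonneg_right hd h1))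
    have h3 : (β - δ) * ((h : ℝ) - a) * Real.log 2 ≤ (β - δ') * ((h : ℝ) - a) * Real.log 2 :=
      mul_le_mul_of_nonneg_right (mul_le_mul_of_nonneg_right (by linarith) h1) hl2.le
    linarith

/-- number of long blocks -/
theorem nblocks {m b x : ℕ} (hm : 1 ≤ m) (h : b + m ≤ x) :
    m * ((x - b) / m - 1) + b + m ≤ x ∧ x ≤ m * ((x - b) / m - 1) + b + 2 * m := by
  have h1 : m * ((x - b) / m) ≤ x - b := Nat.mul_div_le _ _
  have h2 : x - b < m * ((x - b) / m) + m := by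
    have := Nat.lt_mul_div_succ (x - b) (show 0 < m by omega)
    rwa [mul_add, mul_one] at this
  have h3 : 1 ≤ (x - b) / m := by
    rw [Nat.one_le_div_iff (by omega)]
    omega
  obtain ⟨k, hk⟩ := Nat.exists_eq_add_of_le h3
  rw [hk] at h1 h2 ⊢
  rw [Nat.add_sub_cancel_left]
  rw [mul_add, mul_one] at h1 h2
  omega

end Vale.Agent.P127.U.TopE
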